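import Mathlib

/-! P362, part Q: trigonometric average for amplitude amplification. -/

namespace P362
namespace Q

open Real

theorem sum_cos_odd (t : ℝ) (J : ℕ) :
    (∑ j ∈ Finset.range J, Real.cos (2 * ((2 * j + 1) * t))) * (2 * Real.sin (2 * t)) =
      Real.sin (4 * J * t) := by
  induction J with
  | zero => simp
  | succ J ih =>
    rw [Finset.sum_range_succ, add_mul, ih]
    have h1 : Real.sin (4 * ((J + 1 : ℕ) : ℝ) * t) - Real.sin (4 * J * t) =
        2 * Real.sin (2 * t) * Real.cos (2 * ((2 * J + 1) * t)) := by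
      rw [Real.sin_sub_sin]
      have e1 : (4 * ((J + 1 : ℕ) : ℝ) * t - 4 * J * t) / 2 = 2 * t := by push_cast; ring
      have e2 : (4 * ((J + 1 : ℕ) : ℝ) * t + 4 * J * t) / 2 = 2 * ((2 * J + 1) * t) := by
        push_cast; ring
      rw [e1, e2]
    linarith

/-- average success probability of a random number of rotations -/
theorem amp_trig (J : ℕ) (hJ : 1 ≤ J) (t : ℝ) (ht0 : 0 ≤ t) (ht1 : t ≤ π / 2)
    (h : 1 ≤ J * Real.sin t) :
    1 / 4 ≤ (1 / (J : ℝ)) * ∑ j ∈ Finset.range J, Real.sin ((2 * j + 1) * t) ^ 2 := by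
  have hJ' : (0 : ℝ) < J := by exact_mod_cast (by omega : 0 < J)
  have hs : 0 < Real.sin t := by
    by_contra hc
    push Not at hc
    nlinarith
  have htpos : 0 < t := by
    rcases ht0.lt_or_eq with h1 | h1
    · exact h1
    · rw [← h1] at hs; simp at hs
  -- sum formula
  have hsum : ∑ j ∈ Finset.range J, Real.sin ((2 * (j : ℝ) + 1) * t) ^ 2 =
      (J : ℝ) / 2 - (∑ j ∈ Finset.range J, Real.cos (2 * ((2 * (j : ℝ) + 1) * t))) / 2 := by
    have : ∀ j : ℕ, Real.sin ((2 * (j : ℝ) + 1) * t) ^ 2 =
        1 / 2 - Real.cos (2 * ((2 * (j : ℝ) + 1) * t)) / 2 := by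
      intro j
      rw [Real.sin_sq_eq_half_sub]
    simp only [this]
    rw [Finset.sum_sub_distrib, ← Finset.sum_div, Finset.sum_const, Finset.card_range,
      nsmul_eq_mul, mul_one, Finset.sum_div]
  rw [hsum]
  set Sg := ∑ j ∈ Finset.range J, Real.cos (2 * ((2 * (j : ℝ) + 1) * t)) with hSg
  have hkey := sum_cos_odd t J
  rw [← hSg] at hkey
  -- it suffices: Sg ≤ J / 2
  suffices hS : Sg ≤ J / 2 by
    have h12 : 1 / (J : ℝ) * (J / 2 - Sg / 2) = (J / 2 - Sg / 2) / J := by ring
    rw [h12, le_div_iff₀ hJ']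
    linarith
  rcases ht1.lt_or_eq with ht2 | ht2
  · have hs2 : 0 < Real.sin (2 * t) := Real.sin_pos_of_pos_of_lt_pi (by linarith) (by linarith)
    have hSeq : Sg = Real.sin (4 * J * t) / (2 * Real.sin (2 * t)) := by
      rw [eq_div_iff (by positivity), hkey]
    rcases le_total t (π / 4) with h4 | h4
    · -- sin 2t = 2 sin t cos t ≥ sin t ≥ 1 / J
      have hc : 1 / 2 ≤ Real.cos t := by
        have h5 : Real.cos (π / 3) ≤ Real.cos t :=
          Real.cos_le_cos_of_nonneg_of_le_pi ht0 (by linarith [Real.pi_pos]) (by linarith [Real.pi_pos])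
        rwa [Real.cos_pi_div_three] at h5
      have h6 : 1 ≤ J * Real.sin (2 * t) := by
        rw [Real.sin_two_mul]
        nlinarith
      rw [hSeq, div_le_iff₀ (by positivity)]
      have := Real.sin_le_one (4 * J * t)
      nlinarith
    · -- eta = pi/2 - t
      set e := π / 2 - t with he
      have he0 : 0 < e := by linarith
      have he1 : e ≤ π / 4 := by linarith
      have hs3 : Real.sin (2 * t) = Real.sin (2 * e) := by
        rw [show 2 * t = π - 2 * e by rw [he]; ring, Real.sin_pi_sub]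
      have hs4 : Real.sin (4 * J * t) = - Real.sin (4 * J * e) := by
        rw [show 4 * (J : ℝ) * t = (J : ℕ) * (2 * π) - 4 * J * e by rw [he]; ring]
        rw [Real.sin_nat_mul_two_pi_sub]
      rcases le_total (4 * J * e) π with h7 | h7
      · have h8 : 0 ≤ Real.sin (4 * J * e) := Real.sin_nonneg_of_nonneg_of_le_pi (by positivity) h7
        rw [hSeq, hs4, div_le_iff₀ (by positivity)]
        nlinarith
      · have h9 : 2 / π * (2 * e) ≤ Real.sin (2 * e) := Real.mul_le_sin (by linarith) (by linarith)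
        have h10 : 1 ≤ J * Real.sin (2 * t) := by
          rw [hs3]
          have : 1 ≤ J * (2 / π * (2 * e)) := by
            have hp := Real.pi_pos
            rw [show (J : ℝ) * (2 / π * (2 * e)) = (4 * J * e) / π by ring, le_div_iff₀ hp]
            linarith
          nlinarith
        rw [hSeq, div_le_iff₀ (by positivity)]
        have := Real.sin_le_one (4 * J * t)
        nlinarith
  · -- t = pi / 2
    have : ∀ j : ℕ, Real.cos (2 * ((2 * (j : ℝ) + 1) * t)) = -1 := by
      intro j
      rw [ht2, show 2 * ((2 * (j : ℝ) + 1) * (π / 2)) = π + (j : ℕ) * (2 * π) by ring,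
        Real.cos_add_nat_mul_two_pi, Real.cos_pi]
    have h11 : Sg = -J := by
      rw [hSg]
      simp [this]
    rw [h11]
    linarith

end Q
end P362
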