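import Vale.Agent.Lib.P362.Q.Core

/-!
# P362, part Q: fixed distributions, one query, sequential composition, decision trees
-/

namespace P362
namespace Q

open Matrix

variable {V : Type}

/-- extension of an orthonormal family to a unitary matrix -/
theorem ext_unitary {S B : Type} [DecidableEq S] [Fintype B] [DecidableEq B] (j : S → B)
    (hj : Function.Injective j) (v : S → B → ℂ)
    (hv : ∀ s s', ∑ b, star (v s b) * v s' b = if s = s' then 1 else 0) :
    ∃ U ∈ Matrix.unitaryGroup B ℂ, ∀ s b, U b (j s) = v s b := by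
  classical
  obtain ⟨w, hw⟩ : ∃ w : B → EuclideanSpace ℂ B, ∀ s b, w (j s) b = v s b := by
    refine ⟨fun b => if h : ∃ s, j s = b then WithLp.toLp 2 (v h.choose) else 0, fun s b => ?_⟩
    have h : ∃ s', j s' = j s := ⟨s, rfl⟩
    beta_reduce
    rw [dif_pos h, hj h.choose_spec]
  have hon : Orthonormal ℂ ((Set.range j).domRestrict w) := by
    rw [orthonormal_iff_ite]
    rintro ⟨b, s, rfl⟩ ⟨b', s', rfl⟩
    rw [Set.domRestrict_apply, Set.domRestrict_apply, PiLp.inner_apply]
    have h1 : (∑ i, inner ℂ (w (j s) i) (w (j s') i)) = ∑ b, star (v s b) * v s' b := by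
      refine Finset.sum_congr rfl fun i _ => ?_
      rw [hw, hw, RCLike.inner_apply, mul_comm]
      rfl
    refine h1.trans ?_
    rw [hv]
    by_cases h : s = s'
    · subst h
      simp
    · rw [if_neg h, if_neg]
      intro h'
      exact h (hj (congrArg Subtype.val h'))
  obtain ⟨e, he⟩ := Orthonormal.exists_orthonormalBasis_extension_of_card_eq
    (𝕜 := ℂ) (E := EuclideanSpace ℂ B) (ι := B) (by simp) hon
  refine ⟨Matrix.of fun b k => e k b, ?_, fun s b => ?_⟩
  · rw [Matrix.mem_unitaryGroup_iff', star_eq_conjTranspose]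
    ext k l
    rw [mul_apply, one_apply]
    have h1 := orthonormal_iff_ite.1 e.orthonormal k l
    rw [PiLp.inner_apply] at h1
    rw [← h1]
    refine Finset.sum_congr rfl fun i _ => ?_
    rw [RCLike.inner_apply, mul_comm]
    rfl
  · rw [of_apply, he (j s) ⟨s, rfl⟩, hw]

/-- fixed distributions -/
theorem RK.const {R : Type} [Fintype R] [DecidableEq R] (p : R → ℝ) (hp : ∀ r, 0 ≤ p r)
    (hs : ∑ r, p r = 1) : RK (V := V) 0 (fun _ r => p r) := by
  have hne : Nonempty R := by
    by_contra h
    rw [not_nonempty_iff] at h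
    simp at hs
  obtain ⟨r0⟩ := hne
  obtain ⟨U, hU, hc⟩ := ext_unitary (S := Unit) (B := R) (fun _ => r0)
    (fun _ _ _ => Subsingleton.elim _ _) (fun _ r => ((Real.sqrt (p r) : ℝ) : ℂ)) (by
      intro s s'
      rw [if_pos (Subsingleton.elim s s')]
      have h1 : ∀ r, star ((Real.sqrt (p r) : ℝ) : ℂ) * ((Real.sqrt (p r) : ℝ) : ℂ) =
          ((p r : ℝ) : ℂ) := by
        intro r
        rw [Complex.star_def, Complex.conj_ofReal, ← Complex.ofReal_mul,
          Real.mul_self_sqrt (hp r)]
      simp_rw [h1]
      rw [← Complex.ofReal_sum, hs, Complex.ofReal_one])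
  refine ⟨R, inferInstance, inferInstance, fun _ => U, r0, id, QU.const hU, fun x r => ?_⟩
  have h2 : ∀ s, U s r0 = ((Real.sqrt (p s) : ℝ) : ℂ) := fun s => hc () s
  simp_rw [h2, id]
  rw [Finset.sum_ite_eq' Finset.univ r]
  simp only [Finset.mem_univ, if_true]
  rw [Complex.norm_real, Real.norm_eq_abs, sq_abs, Real.sq_sqrt (hp r)]

/-- the Hadamard gate -/
noncomputable def hgate : Matrix Bool Bool ℂ :=
  Matrix.of fun a b => if a && b then -((Real.sqrt 2 / 2 : ℝ) : ℂ) else ((Real.sqrt 2 / 2 : ℝ) : ℂ)

theorem hgate_sq : ((Real.sqrt 2 / 2 : ℝ) : ℂ) * ((Real.sqrt 2 / 2 : ℝ) : ℂ) = 1 / 2 := by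
  rw [← Complex.ofReal_mul]
  have : Real.sqrt 2 / 2 * (Real.sqrt 2 / 2) = 1 / 2 := by
    have := Real.mul_self_sqrt (show (0 : ℝ) ≤ 2 by norm_num)
    nlinarith
  rw [this]
  norm_num

theorem hgate_star : hgateᴴ = hgate := by
  ext a b
  rw [conjTranspose_apply]
  unfold hgate
  rw [of_apply, of_apply]
  cases a <;> cases b <;> simp

theorem hgate_mul : hgate * hgate = 1 := by
  have h := hgate_sq
  ext a b
  rw [mul_apply, Fintype.sum_bool]
  unfold hgate
  simp only [of_apply]
  cases a <;> cases b <;> simp only [Bool.and_true, Bool.and_false, Bool.false_eq_true,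
    if_true, if_false, one_apply_eq, neg_mul, mul_neg, neg_neg]
  · linear_combination 2 * h
  · rw [one_apply_ne (by decide)]; ring
  · rw [one_apply_ne (by decide)]; ring
  · linear_combination 2 * h

theorem hgate_mem : hgate ∈ Matrix.unitaryGroup Bool ℂ := by
  rw [Matrix.mem_unitaryGroup_iff, star_eq_conjTranspose, hgate_star, hgate_mul]

/-- reading one bit -/
theorem RK.query1 (v : V) : RK 1 (fun (x : V → Bool) (b : Bool) => if x v = b then 1 else 0) := by
  have hQ : QU 1 (fun x : V → Bool => hgate * (Matrix.diagonal (fun s : Bool =>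
      ph x (if s then some v else none)) * hgate)) := by
    have h1 := (QU.const (V := V) hgate_mem).mul
      ((QU.query (V := V) (fun s : Bool => if s then some v else none)).mul (QU.const hgate_mem))
    simpa using h1
  refine ⟨Bool, inferInstance, inferInstance, _, false, id, hQ, fun x b => ?_⟩
  have h := hgate_sq
  have hent : ∀ s : Bool, (hgate * (Matrix.diagonal (fun s : Bool =>
      ph x (if s then some v else none)) * hgate)) s false = if x v = s then 1 else 0 := by
    intro s
    rw [mul_apply, Fintype.sum_bool, diagonal_mul, diagonal_mul]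
    unfold hgate
    simp only [of_apply]
    cases hx : x v <;> cases s <;> simp only [ph, hx, Bool.and_true, Bool.and_false,
      Bool.false_eq_true, if_true, if_false, neg_mul, mul_neg,
      neg_neg, one_mul, reduceCtorEq]
    · linear_combination 2 * h
    · ring
    · ring
    · linear_combination 2 * h
  simp_rw [hent, id]
  rw [Finset.sum_ite_eq' Finset.univ b]
  simp only [Finset.mem_univ, if_true]
  by_cases hb : x v = b
  · simp [hb]
  · simp [hb]

/-- sequential composition -/
theorem RK.bind {R T : Type} [Fintype R] [DecidableEq R] [DecidableEq T] {q1 q2 : ℕ}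
    {μ : (V → Bool) → R → ℝ} {ν : R → (V → Bool) → T → ℝ} (h1 : RK q1 μ)
    (h2 : ∀ r, RK q2 (ν r)) : RK (q1 + q2) (fun x t => ∑ r, μ x r * ν r x t) := by
  obtain ⟨S, i1, i2, A, a, out, hA, hμ⟩ := h1
  choose S2 j1 j2 A2 a2 out2 hA2 hν using h2
  obtain ⟨g, hg⟩ : ∃ g : S → (Σ r, S2 r), g = fun s => ⟨out s, a2 (out s)⟩ := ⟨_, rfl⟩
  obtain ⟨p0, hp0⟩ : ∃ p0 : Σ r, S2 r, p0 = g a := ⟨_, rfl⟩
  -- the junction
  obtain ⟨W, hW, hWc⟩ := ext_unitary (S := S) (B := S × (Σ r, S2 r)) (fun s => (s, p0))
    (fun s s' h => congrArg Prod.fst h) (fun s b => if b = (s, g s) then 1 else 0) (by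
      intro s s'
      rw [Finset.sum_eq_single (s', g s')]
      · rw [if_pos rfl, mul_one]
        by_cases h : s = s'
        · subst h
          simp
        · rw [if_neg h, if_neg, star_zero]
          intro h'
          exact h (congrArg Prod.fst h').symm
      · intro b _ hb
        rw [if_neg hb, mul_zero]
      · intro h
        exact absurd (Finset.mem_univ _) h)
  have hN1 : QU q1 (fun x : V → Bool => Matrix.blockDiagonal (fun _ : (Σ r, S2 r) => A x)) :=
    hA.prodOne
  have hN2 : QU q2 (fun x : V → Bool => (Matrix.blockDiagonal (fun _ : S =>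
      Matrix.blockDiagonal' (fun r => A2 r x))).submatrix (Equiv.prodComm S (Σ r, S2 r))
        (Equiv.prodComm S (Σ r, S2 r))) :=
    ((QU.block hA2).prodOne (S' := S)).reindex (Equiv.prodComm S (Σ r, S2 r))
  have hAll : QU (q1 + q2) (fun x : V → Bool => (Matrix.blockDiagonal (fun _ : S =>
      Matrix.blockDiagonal' (fun r => A2 r x))).submatrix (Equiv.prodComm S (Σ r, S2 r))
        (Equiv.prodComm S (Σ r, S2 r)) *
        (W * Matrix.blockDiagonal (fun _ : (Σ r, S2 r) => A x))) := by
    have h3 := hN2.mul ((QU.const (V := V) hW).mul hN1)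
    have h4 : q2 + (0 + q1) = q1 + q2 := by omega
    rwa [h4] at h3
  refine ⟨S × (Σ r, S2 r), inferInstance, inferInstance, _, (a, p0), fun b => out2 b.2.1 b.2.2,
    hAll, fun x t => ?_⟩
  -- the amplitudes
  have e1 : ∀ b, (W * Matrix.blockDiagonal (fun _ : (Σ r, S2 r) => A x)) b (a, p0) =
      ∑ s, (if b = (s, g s) then 1 else 0) * A x s a := by
    intro b
    rw [mul_apply, Fintype.sum_prod_type]
    refine Finset.sum_congr rfl fun s _ => ?_
    rw [Finset.sum_eq_single p0]
    · rw [hWc, blockDiagonal_apply, if_pos rfl]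
    · intro p _ hp
      rw [blockDiagonal_apply, if_neg hp, mul_zero]
    · intro h
      exact absurd (Finset.mem_univ _) h
  have e2 : ∀ s p, ((Matrix.blockDiagonal (fun _ : S =>
      Matrix.blockDiagonal' (fun r => A2 r x))).submatrix (Equiv.prodComm S (Σ r, S2 r))
        (Equiv.prodComm S (Σ r, S2 r)) *
        (W * Matrix.blockDiagonal (fun _ : (Σ r, S2 r) => A x))) (s, p) (a, p0) =
      Matrix.blockDiagonal' (fun r => A2 r x) p (g s) * A x s a := by
    intro s p
    rw [mul_apply]
    simp_rw [e1]
    rw [Finset.sum_eq_single (s, g s)]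
    · rw [Finset.sum_eq_single s]
      · rw [if_pos rfl, one_mul, submatrix_apply]
        simp only [Equiv.prodComm_apply, Prod.swap_prod_mk]
        rw [blockDiagonal_apply, if_pos rfl]
      · intro s' _ hs'
        rw [if_neg, zero_mul]
        intro h
        exact hs' (congrArg Prod.fst h).symm
      · intro h
        exact absurd (Finset.mem_univ _) h
    · rintro ⟨s', p'⟩ _ hb
      by_cases hs' : s = s'
      · subst hs'
        rw [Finset.sum_eq_zero, mul_zero]
        intro s'' _
        by_cases h : s'' = s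
        · subst h
          rw [if_neg hb, zero_mul]
        · rw [if_neg, zero_mul]
          intro h'
          exact h (congrArg Prod.fst h').symm
      · rw [submatrix_apply]
        simp only [Equiv.prodComm_apply, Prod.swap_prod_mk]
        rw [blockDiagonal_apply, if_neg hs', zero_mul]
    · intro h
      exact absurd (Finset.mem_univ _) h
  rw [Fintype.sum_prod_type]
  simp_rw [e2]
  have e3 : ∀ s, (∑ p : Σ r, S2 r, if out2 p.1 p.2 = t then
      ‖Matrix.blockDiagonal' (fun r => A2 r x) p (g s) * A x s a‖ ^ 2 else 0) =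
      ‖A x s a‖ ^ 2 * ν (out s) x t := by
    intro s
    rw [Fintype.sum_sigma, Finset.sum_eq_single (out s)]
    · rw [← hν, Finset.mul_sum]
      refine Finset.sum_congr rfl fun y _ => ?_
      rw [hg]
      simp only [blockDiagonal'_apply_eq]
      split_ifs
      · rw [norm_mul, mul_pow, mul_comm]
      · rw [mul_zero]
    · intro r _ hr
      refine Finset.sum_eq_zero fun y _ => ?_
      rw [hg]
      simp only [blockDiagonal'_apply_ne _ _ _ hr, zero_mul, norm_zero]
      simp
    · intro h
      exact absurd (Finset.mem_univ _) h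
  simp_rw [e3, ← hμ, Finset.sum_mul]
  rw [Finset.sum_comm]
  refine Finset.sum_congr rfl fun s _ => ?_
  rw [Finset.sum_eq_single (out s)]
  · rw [if_pos rfl]
  · intro r _ hr
    rw [if_neg (Ne.symm hr), zero_mul]
  · intro h
    exact absurd (Finset.mem_univ _) h

/-- decision trees -/
theorem RK.tree {R : Type} [Fintype R] [DecidableEq R] (t : DT V R) :
    RK t.depth (fun x r => if t.eval x = r then 1 else 0) := by
  induction t with
  | leaf r0 =>
    have h := RK.const (V := V) (fun r : R => if r0 = r then (1 : ℝ) else 0)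
      (fun r => by split_ifs <;> norm_num) (by simp)
    exact h
  | node v t0 t1 ih0 ih1 =>
    have h := RK.bind (RK.query1 v) (q2 := max t0.depth t1.depth)
      (ν := fun (b : Bool) x r => if (if b then t1 else t0).eval x = r then 1 else 0) (by
        intro b
        cases b with
        | false => exact ih0.mono (le_max_left _ _)
        | true => exact ih1.mono (le_max_right _ _))
    rw [DT.depth, Nat.add_comm]
    convert h using 3 with x r
    rw [Fintype.sum_bool, DT.eval]
    cases x v <;> simp

end Q
end P362
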