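import Vale.Agent.Lib.P362.Q.Core
import Vale.Agent.Lib.P362.Q.Bind
import Vale.Agent.Lib.P362.Q.AmpTrig

/-! P362, part Q: amplitude amplification. -/

namespace P362
namespace Q

open Matrix

variable {V : Type}
variable {S : Type} [Fintype S] [DecidableEq S]

/-- reflection about the basis state `s0` -/
def refl0 (s0 : S) : Matrix S S ℂ := Matrix.diagonal (fun s => if s = s0 then 1 else -1)

/-- sign change on good states -/
def reflG (g : S → Bool) : Matrix S S ℂ := Matrix.diagonal (fun s => if g s then -1 else 1)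

theorem refl0_mem (s0 : S) : refl0 s0 ∈ Matrix.unitaryGroup S ℂ := by
  rw [Matrix.mem_unitaryGroup_iff, Matrix.star_eq_conjTranspose, refl0,
    Matrix.diagonal_conjTranspose, Matrix.diagonal_mul_diagonal, ← Matrix.diagonal_one]
  congr 1
  funext s
  by_cases h : s = s0 <;> simp [h]

theorem reflG_mem (g : S → Bool) : reflG g ∈ Matrix.unitaryGroup S ℂ := by
  rw [Matrix.mem_unitaryGroup_iff, Matrix.star_eq_conjTranspose, reflG,
    Matrix.diagonal_conjTranspose, Matrix.diagonal_mul_diagonal, ← Matrix.diagonal_one]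
  congr 1
  funext s
  by_cases h : g s <;> simp [h]

/-- the rotation of amplitude amplification -/
noncomputable def rot (M : Matrix S S ℂ) (s0 : S) (g : S → Bool) : Matrix S S ℂ :=
  M * (refl0 s0 * (Mᴴ * reflG g))

theorem QU.rot_pow {q : ℕ} {A : (V → Bool) → Matrix S S ℂ} (hA : QU q A) (s0 : S)
    (g : S → Bool) (j : ℕ) : QU ((2 * j + 1) * q) (fun x => (rot (A x) s0 g) ^ j * A x) := by
  induction j with
  | zero => simpa using hA
  | succ j ih =>
    have h1 : QU (q + (0 + (q + 0))) (fun x => rot (A x) s0 g) :=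
      hA.mul ((QU.const (refl0_mem s0)).mul (hA.adj.mul (QU.const (reflG_mem g))))
    have h2 := h1.mul ih
    have h3 : (fun x => (rot (A x) s0 g) ^ (j + 1) * A x) =
        fun x => rot (A x) s0 g * ((rot (A x) s0 g) ^ j * A x) := by
      funext x
      rw [pow_succ', Matrix.mul_assoc]
    rw [h3, show (2 * (j + 1) + 1) * q = q + (0 + (q + 0)) + (2 * j + 1) * q by ring]
    exact h2

/-- coefficients of the good and the bad part after `j` rotations, `p` = good probability -/
noncomputable def coef (p : ℝ) : ℕ → ℝ × ℝ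
  | 0 => (1, 1)
  | j + 1 => ((coef p j).1 + 2 * ((coef p j).2 * (1 - p) - (coef p j).1 * p),
      2 * ((coef p j).2 * (1 - p) - (coef p j).1 * p) - (coef p j).2)

theorem coef_trig (t : ℝ) (j : ℕ) :
    (coef (Real.sin t ^ 2) j).1 * Real.sin t = Real.sin ((2 * j + 1) * t) ∧
      (coef (Real.sin t ^ 2) j).2 * Real.cos t = Real.cos ((2 * j + 1) * t) := by
  induction j with
  | zero => simp [coef]
  | succ j ih =>
    obtain ⟨h1, h2⟩ := ih
    have e : (2 * ((j + 1 : ℕ) : ℝ) + 1) * t = (2 * j + 1) * t + 2 * t := by push_cast; ring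
    have hc : Real.sin t ^ 2 + Real.cos t ^ 2 = 1 := Real.sin_sq_add_cos_sq t
    constructor
    · rw [e, Real.sin_add, ← h1, ← h2, Real.sin_two_mul, Real.cos_two_mul]
      simp only [coef]
      have hc' : Real.cos t ^ 2 = 1 - Real.sin t ^ 2 := by linarith
      rw [← sub_eq_zero]
      have : 1 - Real.sin t ^ 2 = Real.cos t ^ 2 := by linarith
      rw [this]
      have hs : Real.sin t ^ 2 = 1 - Real.cos t ^ 2 := by linarith
      rw [hs]
      ring
    · rw [e, Real.cos_add, ← h1, ← h2, Real.sin_two_mul, Real.cos_two_mul]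
      simp only [coef]
      have : 1 - Real.sin t ^ 2 = Real.cos t ^ 2 := by linarith
      rw [this]
      rw [← sub_eq_zero]
      ring_nf

theorem refl0_mul_apply (M : Matrix S S ℂ) (hM : M ∈ Matrix.unitaryGroup S ℂ) (s0 : S)
    (w : S → ℂ) (s : S) :
    (M *ᵥ (refl0 s0 *ᵥ (Mᴴ *ᵥ w))) s = 2 * (∑ a, star (M a s0) * w a) * M s s0 - w s := by
  have h1 : refl0 s0 *ᵥ (Mᴴ *ᵥ w) =
      (2 * (∑ a, star (M a s0) * w a)) • Pi.single s0 (1 : ℂ) - Mᴴ *ᵥ w := by
    funext b
    rw [refl0, Matrix.mulVec_diagonal]
    by_cases hb : b = s0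
    · subst hb
      simp only [if_true, Pi.sub_apply, Pi.smul_apply, Pi.single_eq_same, smul_eq_mul, mul_one]
      have : (Mᴴ *ᵥ w) b = ∑ a, star (M a b) * w a := by
        simp [Matrix.mulVec, dotProduct, Matrix.conjTranspose_apply]
      rw [this]
      ring
    · simp [hb]
  rw [h1, Matrix.mulVec_sub, Matrix.mulVec_smul, Matrix.mulVec_mulVec]
  have h2 : M * Mᴴ = 1 := by
    have := Matrix.mem_unitaryGroup_iff.mp hM
    rwa [Matrix.star_eq_conjTranspose] at this
  rw [h2, Matrix.one_mulVec]
  simp

/-- the column of the amplified program -/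
theorem rot_pow_col (M : Matrix S S ℂ) (hM : M ∈ Matrix.unitaryGroup S ℂ) (s0 : S)
    (g : S → Bool) (j : ℕ) (s : S) :
    ((rot M s0 g) ^ j * M) s s0 =
      (if g s then ((coef (∑ s, if g s then ‖M s s0‖ ^ 2 else 0) j).1 : ℂ)
        else ((coef (∑ s, if g s then ‖M s s0‖ ^ 2 else 0) j).2 : ℂ)) * M s s0 := by
  set p : ℝ := ∑ s, if g s then ‖M s s0‖ ^ 2 else 0 with hp
  have hq : ∑ s, (if g s then 0 else ‖M s s0‖ ^ 2) = 1 - p := by
    have h1 : ∑ s, ‖M s s0‖ ^ 2 = 1 := by
      have h2 : (Mᴴ * M) s0 s0 = 1 := by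
        have := Matrix.mem_unitaryGroup_iff'.mp hM
        rw [Matrix.star_eq_conjTranspose] at this
        rw [this, Matrix.one_apply_eq]
      rw [Matrix.mul_apply] at h2
      have h3 : ∀ a, Mᴴ s0 a * M a s0 = ((‖M a s0‖ ^ 2 : ℝ) : ℂ) := by
        intro a
        rw [Matrix.conjTranspose_apply, ← Complex.normSq_eq_norm_sq, Complex.normSq_eq_conj_mul_self]
        rfl
      simp only [h3] at h2
      exact_mod_cast h2
    rw [← h1, hp, eq_sub_iff_add_eq, ← Finset.sum_add_distrib]
    refine Finset.sum_congr rfl fun a _ => ?_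
    by_cases ha : g a <;> simp [ha]
  induction j generalizing s with
  | zero => simp [coef]
  | succ j ih =>
    have h1 : ((rot M s0 g) ^ (j + 1) * M) s s0 =
        (M *ᵥ (refl0 s0 *ᵥ (Mᴴ *ᵥ (fun a => (if g a then -1 else 1) *
          ((rot M s0 g) ^ j * M) a s0)))) s := by
      have h2 : (fun a => (if g a then (-1 : ℂ) else 1) * ((rot M s0 g) ^ j * M) a s0) =
          reflG g *ᵥ (fun a => ((rot M s0 g) ^ j * M) a s0) := by
        funext a
        rw [reflG, Matrix.mulVec_diagonal]
      rw [h2, Matrix.mulVec_mulVec, Matrix.mulVec_mulVec, Matrix.mulVec_mulVec, pow_succ',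
        Matrix.mul_assoc, Matrix.mul_apply]
      have h5 : M * refl0 s0 * Mᴴ * reflG g = rot M s0 g := by
        rw [rot, Matrix.mul_assoc, Matrix.mul_assoc]
      rw [h5]
      rfl
    rw [h1, refl0_mul_apply M hM]
    have h4 : (∑ a, star (M a s0) * ((if g a then (-1 : ℂ) else 1) *
        ((rot M s0 g) ^ j * M) a s0)) =
        (((coef p j).2 * (1 - p) - (coef p j).1 * p : ℝ) : ℂ) := by
      rw [← hq]
      conv_rhs => rw [hp]
      rw [Finset.mul_sum, Finset.mul_sum, ← Finset.sum_sub_distrib]
      rw [Complex.ofReal_sum]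
      refine Finset.sum_congr rfl fun a _ => ?_
      rw [ih a]
      have h3 : star (M a s0) * M a s0 = ((‖M a s0‖ ^ 2 : ℝ) : ℂ) := by
        rw [← Complex.normSq_eq_norm_sq, Complex.normSq_eq_conj_mul_self]
        rfl
      by_cases ha : g a
      · simp only [ha, if_true]
        rw [show star (M a s0) * (-1 * (((coef p j).1 : ℂ) * M a s0)) =
          -((coef p j).1 : ℂ) * (star (M a s0) * M a s0) by ring, h3]
        push_cast
        ring
      · simp only [ha]
        simp only [Bool.false_eq_true, if_false]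
        rw [show star (M a s0) * (1 * (((coef p j).2 : ℂ) * M a s0)) =
          ((coef p j).2 : ℂ) * (star (M a s0) * M a s0) by ring, h3]
        push_cast
        ring
    rw [h4, ih s]
    by_cases hs : g s
    · simp only [hs, if_true, coef]
      push_cast
      ring
    · simp only [hs]
      simp only [Bool.false_eq_true, if_false, coef]
      push_cast
      ring

/-- a fixed number of rounds of amplitude amplification -/
theorem amp_fixed {R : Type} [Fintype R] [DecidableEq R] {q : ℕ} {μ : (V → Bool) → R → ℝ}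
    (h : RK q μ) (G : R → Bool) (j : ℕ) :
    ∃ ν : (V → Bool) → Option R → ℝ, RK ((2 * j + 1) * q) ν ∧
      ∀ x, ∃ a : ℝ, (∀ r, ν x (some r) = if G r then a ^ 2 * μ x r else 0) ∧
        ∀ t : ℝ, Real.sin t ^ 2 = ∑ r, (if G r then μ x r else 0) →
          a * Real.sin t = Real.sin ((2 * j + 1) * t) := by
  obtain ⟨S, i1, i2, A, s0, out, hA, h⟩ := h
  refine ⟨fun x o => ∑ s, (if (if G (out s) then some (out s) else none) = o then
    ‖((rot (A x) s0 (fun s => G (out s))) ^ j * A x) s s0‖ ^ 2 else 0),
    ⟨S, i1, i2, _, s0, fun s => if G (out s) then some (out s) else none,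
      QU.rot_pow hA s0 (fun s => G (out s)) j, fun x r => rfl⟩, ?_⟩
  intro x
  refine ⟨(coef (∑ s, if G (out s) then ‖A x s s0‖ ^ 2 else 0) j).1, ?_, ?_⟩
  · intro r
    by_cases hr : G r
    · simp only [hr, if_true]
      rw [← h x r, Finset.mul_sum]
      refine Finset.sum_congr rfl fun s _ => ?_
      by_cases hs : out s = r
      · have hg : G (out s) = true := by rw [hs]; exact hr
        have hh : (if G (out s) = true then some (out s) else none) = some r := by
          rw [if_pos hg, hs]
        rw [if_pos hs, if_pos hh]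
        rw [rot_pow_col (A x) (hA.mem x) s0 (fun s => G (out s)) j s]
        simp only [hg, if_true]
        rw [norm_mul, mul_pow, Complex.norm_real, Real.norm_eq_abs, sq_abs]
      · rw [if_neg hs, mul_zero]
        by_cases hg : G (out s)
        · simp [hg, hs]
        · simp [hg]
    · simp only [hr]
      simp only [Bool.false_eq_true, if_false]
      refine Finset.sum_eq_zero fun s _ => ?_
      by_cases hg : G (out s)
      · have hs : out s ≠ r := by
          intro hs
          rw [hs] at hg
          exact hr hg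
        simp [hg, hs]
      · simp [hg]
  · intro t ht
    have h1 : (∑ s, if G (out s) then ‖A x s s0‖ ^ 2 else 0) = Real.sin t ^ 2 := by
      rw [ht]
      have h2 : ∀ r, (if G r then μ x r else 0) =
          ∑ s, (if out s = r then (if G (out s) then ‖A x s s0‖ ^ 2 else 0) else 0) := by
        intro r
        rw [← h x r]
        by_cases hr : G r
        · simp only [hr, if_true]
          refine Finset.sum_congr rfl fun s _ => ?_
          by_cases hs : out s = r
          · simp [hs, hr]
          · simp [hs]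
        · simp only [hr]
          simp only [Bool.false_eq_true, if_false]
          symm
          refine Finset.sum_eq_zero fun s _ => ?_
          by_cases hs : out s = r
          · simp [hs, hr]
          · simp [hs]
      simp only [h2]
      rw [Finset.sum_comm]
      refine Finset.sum_congr rfl fun s _ => ?_
      simp
    rw [h1]
    exact (coef_trig t j).1

/-- amplitude amplification with a random number of rounds -/
theorem rk_amp {R : Type} [Fintype R] [DecidableEq R] {q : ℕ} {μ : (V → Bool) → R → ℝ}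
    (h : RK q μ) (G : R → Bool) (J : ℕ) (hJ : 1 ≤ J) :
    ∃ ν : (V → Bool) → Option R → ℝ, RK ((2 * J + 1) * q) ν ∧
      ∀ x, ∃ c : ℝ, 0 ≤ c ∧ (∀ r, ν x (some r) = if G r then c * μ x r else 0) ∧
        (1 ≤ (J : ℝ) ^ 2 * ∑ r, (if G r then μ x r else 0) →
          1 / 4 ≤ ∑ r, ν x (some r)) := by
  have hJ0 : (0 : ℝ) < J := by exact_mod_cast (by omega : 0 < J)
  choose ν hν hx using fun j : Fin J => amp_fixed h G (j : ℕ)
  choose a ha1 ha2 using hx
  have hu : RK (V := V) 0 (fun _ (_ : Fin J) => 1 / (J : ℝ)) := by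
    refine RK.const _ (fun _ => by positivity) ?_
    simp
    field_simp
  have hm : ∀ j : Fin J, RK ((2 * J + 1) * q) (ν j) := fun j =>
    (hν j).mono (Nat.mul_le_mul_right q (by have := j.2; omega))
  have hb := RK.bind hu hm
  rw [Nat.zero_add] at hb
  refine ⟨_, hb, fun x => ⟨∑ j : Fin J, 1 / (J : ℝ) * a j x ^ 2, ?_, ?_, ?_⟩⟩
  · exact Finset.sum_nonneg fun j _ => by positivity
  · intro r
    by_cases hr : G r
    · simp only [hr, if_true, Finset.sum_mul]
      refine Finset.sum_congr rfl fun j _ => ?_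
      rw [ha1 j x r]
      simp only [hr, if_true]
      ring
    · simp only [hr]
      simp only [Bool.false_eq_true, if_false]
      refine Finset.sum_eq_zero fun j _ => ?_
      rw [ha1 j x r]
      simp [hr]
  · intro hp
    set p : ℝ := ∑ r, (if G r then μ x r else 0) with hpdef
    have hμ0 : ∀ r, 0 ≤ μ x r := by
      obtain ⟨S, i1, i2, A, s0, out, hA, h⟩ := h
      intro r
      rw [← h x r]
      exact Finset.sum_nonneg fun s _ => by split_ifs <;> positivity
    have hμ1 : ∑ r, μ x r = 1 := by
      obtain ⟨S, i1, i2, A, s0, out, hA, h⟩ := h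
      have h1 : ∑ s, ‖A x s s0‖ ^ 2 = 1 := by
        have h2 : ((A x)ᴴ * A x) s0 s0 = 1 := by
          have := Matrix.mem_unitaryGroup_iff'.mp (hA.mem x)
          rw [Matrix.star_eq_conjTranspose] at this
          rw [this, Matrix.one_apply_eq]
        rw [Matrix.mul_apply] at h2
        have h3 : ∀ b, (A x)ᴴ s0 b * A x b s0 = ((‖A x b s0‖ ^ 2 : ℝ) : ℂ) := by
          intro b
          rw [Matrix.conjTranspose_apply, ← Complex.normSq_eq_norm_sq,
            Complex.normSq_eq_conj_mul_self]
          rfl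
        simp only [h3] at h2
        exact_mod_cast h2
      rw [← h1]
      simp only [← h x]
      rw [Finset.sum_comm]
      refine Finset.sum_congr rfl fun s _ => ?_
      simp
    have hp0 : 0 ≤ p := Finset.sum_nonneg fun r _ => by
      split_ifs
      · exact hμ0 r
      · exact le_refl _
    have hp1 : p ≤ 1 := by
      rw [← hμ1, hpdef]
      refine Finset.sum_le_sum fun r _ => ?_
      split_ifs
      · exact le_refl _
      · exact hμ0 r
    set t := Real.arcsin (Real.sqrt p) with ht
    have hst : Real.sin t = Real.sqrt p := by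
      rw [ht, Real.sin_arcsin]
      · linarith [Real.sqrt_nonneg p]
      · exact Real.sqrt_le_one.mpr hp1
    have hst2 : Real.sin t ^ 2 = p := by rw [hst, Real.sq_sqrt hp0]
    have ht0 : 0 ≤ t := Real.arcsin_nonneg.mpr (Real.sqrt_nonneg p)
    have ht1 : t ≤ Real.pi / 2 := Real.arcsin_le_pi_div_two _
    have hJs : 1 ≤ J * Real.sin t := by
      rw [hst]
      have h1 : 1 ≤ ((J : ℝ) * Real.sqrt p) ^ 2 := by
        rw [mul_pow, Real.sq_sqrt hp0]
        exact hp
      have h2 : 0 ≤ (J : ℝ) * Real.sqrt p := by positivity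
      nlinarith
    have key := amp_trig J hJ t ht0 ht1 hJs
    refine key.trans (le_of_eq ?_)
    rw [Finset.mul_sum, ← Fin.sum_univ_eq_sum_range
      (fun j : ℕ => 1 / (J : ℝ) * Real.sin ((2 * (j : ℝ) + 1) * t) ^ 2)]
    rw [Finset.sum_comm]
    refine Finset.sum_congr rfl fun j _ => ?_
    rw [← ha2 j x t hst2, mul_pow, hst2]
    rw [← Finset.mul_sum]
    congr 1
    rw [hpdef, Finset.mul_sum]
    refine Finset.sum_congr rfl fun r _ => ?_
    rw [ha1 j x r]
    split_ifs <;> ring

end Q
end P362
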