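import Mathlib

/-! P362, part Q: unitary matrices with prescribed orthonormal columns. -/

namespace P362
namespace Q

open Matrix

/-- a unitary matrix with prescribed orthonormal columns `f a` at the indices `idx a` -/
theorem exists_unitary_cols {S X : Type} [Fintype S] [DecidableEq S] [DecidableEq X]
    (idx : X → S) (hidx : Function.Injective idx) (f : X → S → ℂ)
    (hf : ∀ a b, ∑ s, star (f a s) * f b s = if a = b then 1 else 0) :
    ∃ W ∈ Matrix.unitaryGroup S ℂ, ∀ a s, W s (idx a) = f a s := by
  classical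
  let v : S → EuclideanSpace ℂ S := fun i =>
    if h : ∃ a, idx a = i then WithLp.toLp 2 (f h.choose) else 0
  have hv : ∀ a, v (idx a) = WithLp.toLp 2 (f a) := by
    intro a
    have h : ∃ b, idx b = idx a := ⟨a, rfl⟩
    simp only [v, dif_pos h]
    rw [hidx h.choose_spec]
  have h1 : Orthonormal ℂ ((Set.range idx).domRestrict v) := by
    rw [orthonormal_iff_ite]
    intro i j
    obtain ⟨a, ha⟩ := i.2
    obtain ⟨b, hb⟩ := j.2
    have h2 : ∑ s, star (f a s) * f b s = inner ℂ (v (idx a)) (v (idx b)) := by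
      rw [hv, hv, EuclideanSpace.inner_eq_star_dotProduct, dotProduct]
      refine Finset.sum_congr rfl fun s _ => ?_
      simp [mul_comm]
    have h3 : inner ℂ (v (idx a)) (v (idx b)) = if a = b then (1 : ℂ) else 0 := by
      rw [← h2, hf a b]
    have h4 : inner ℂ (v i.1) (v j.1) = if a = b then (1 : ℂ) else 0 := by
      rw [← ha, ← hb]
      exact h3
    refine Eq.trans h4 ?_
    by_cases hij : i = j
    · rw [if_pos hij, if_pos]
      apply hidx
      rw [ha, hb, hij]
    · rw [if_neg hij, if_neg]
      intro hab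
      exact hij (Subtype.ext (by rw [← ha, ← hb, hab]))
  obtain ⟨b, hb⟩ := h1.exists_orthonormalBasis_extension_of_card_eq (by simp)
  refine ⟨(EuclideanSpace.basisFun S ℂ).toBasis.toMatrix b, ?_, ?_⟩
  · exact (EuclideanSpace.basisFun S ℂ).toMatrix_orthonormalBasis_mem_unitary b
  · intro a s
    rw [Module.Basis.toMatrix_apply, hb (idx a) ⟨a, rfl⟩, hv]
    simp

/-- a unitary matrix with a given unit column -/
theorem exists_unitary_col {S : Type} [Fintype S] [DecidableEq S] (s0 : S) (u : S → ℂ)
    (hu : ∑ s, ‖u s‖ ^ 2 = 1) : ∃ W ∈ Matrix.unitaryGroup S ℂ, ∀ s, W s s0 = u s := by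
  obtain ⟨W, hW, h⟩ := exists_unitary_cols (X := Unit) (fun _ => s0)
    (fun a b _ => Subsingleton.elim a b) (fun _ => u) (by
      intro a b
      rw [if_pos (Subsingleton.elim a b)]
      have h1 : ∀ s, star (u s) * u s = ((‖u s‖ ^ 2 : ℝ) : ℂ) := by
        intro s
        rw [Complex.star_def, ← Complex.normSq_eq_conj_mul_self, Complex.normSq_eq_norm_sq]
      rw [Finset.sum_congr rfl fun s _ => h1 s, ← Complex.ofReal_sum, hu]
      simp)
  exact ⟨W, hW, fun s => h () s⟩

end Q
end P362
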