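import Vale.Agent.Lib.P362.Q.Core
import Vale.Agent.Lib.P362.Q.Col

/-! P362, part Q: the internal model realizes exactly the literal model. -/

namespace P362
namespace Q

open Matrix
open scoped Kronecker

section Lit

variable {V S : Type} [Fintype V] [DecidableEq V] [Fintype S] [DecidableEq S]

/-- states of the literal algorithm given by a sequence of matrices -/
noncomputable def st (init : V × Bool × S → ℂ) (G : ℕ → Matrix (V × Bool × S) (V × Bool × S) ℂ)
    (x : V → Bool) : ℕ → (V × Bool × S → ℂ)
  | 0 => (G 0).mulVec init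
  | t + 1 => (G (t + 1)).mulVec (oracle x (st init G x t))

lemma st_congr (init : V × Bool × S → ℂ) {G G' : ℕ → Matrix (V × Bool × S) (V × Bool × S) ℂ}
    (x : V → Bool) {n : ℕ} (h : ∀ t ≤ n, G t = G' t) : st init G x n = st init G' x n := by
  induction n with
  | zero => simp only [st, h 0 le_rfl]
  | succ n ih =>
    simp only [st, h (n + 1) le_rfl, ih (fun t ht => h t (Nat.le_succ_of_le ht))]

lemma st_mul (init : V × Bool × S → ℂ) {G G' : ℕ → Matrix (V × Bool × S) (V × Bool × S) ℂ}
    (K : Matrix (V × Bool × S) (V × Bool × S) ℂ)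
    (x : V → Bool) {n : ℕ} (h : ∀ t < n, G' t = G t) (hn : G' n = K * G n) :
    st init G' x n = K.mulVec (st init G x n) := by
  cases n with
  | zero => simp only [st, hn, Matrix.mulVec_mulVec]
  | succ n =>
    have h1 : st init G' x n = st init G x n :=
      st_congr init x (fun t ht => h t (Nat.lt_succ_of_le ht))
    simp only [st, hn, h1, Matrix.mulVec_mulVec]

/-- the literal algorithm of a sequence of unitary matrices -/
noncomputable def mkAlg {R : Type} (init : V × Bool × S → ℂ) (hinit : ∑ p, ‖init p‖ ^ 2 = 1)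
    (G : ℕ → Matrix (V × Bool × S) (V × Bool × S) ℂ) (hG : ∀ t, G t ∈ Matrix.unitaryGroup _ ℂ)
    (out : V × Bool × S → R) (T : ℕ) : QAlg V R T where
  W := S
  init := init
  init_norm := hinit
  U := fun t => G t.val
  unitary := fun t => hG t.val
  out := out

lemma mkAlg_state {R : Type} (init : V × Bool × S → ℂ) (hinit : ∑ p, ‖init p‖ ^ 2 = 1)
    (G : ℕ → Matrix (V × Bool × S) (V × Bool × S) ℂ) (hG : ∀ t, G t ∈ Matrix.unitaryGroup _ ℂ)
    (out : V × Bool × S → R) (T : ℕ) (x : V → Bool) {t : ℕ} (ht : t ≤ T) :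
    (mkAlg init hinit G hG out T).state x t = st init G x t := by
  induction t with
  | zero => rfl
  | succ t ih =>
    have h1 : ((mkAlg init hinit G hG out T).U (Fin.ofNat (T + 1) (t + 1))) = G (t + 1) := by
      show G (Fin.ofNat (T + 1) (t + 1)).val = G (t + 1)
      congr 1
      show (t + 1) % (T + 1) = t + 1
      exact Nat.mod_eq_of_lt (by omega)
    show ((mkAlg init hinit G hG out T).U (Fin.ofNat (T + 1) (t + 1))).mulVec
      (oracle x ((mkAlg init hinit G hG out T).state x t)) = _
    rw [h1, ih (by omega)]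
    rfl

/-- embedding of the internal space -/
def emb (v0 : V) (u : S → ℂ) : V × Bool × S → ℂ :=
  fun p => if p.1 = v0 ∧ p.2.1 = false then u p.2.2 else 0

/-- `1 ⊗ 1 ⊗ U` -/
def tens (U : Matrix S S ℂ) : Matrix (V × Bool × S) (V × Bool × S) ℂ :=
  (1 : Matrix V V ℂ) ⊗ₖ ((1 : Matrix Bool Bool ℂ) ⊗ₖ U)

lemma tens_unitary {U : Matrix S S ℂ} (hU : U ∈ Matrix.unitaryGroup S ℂ) :
    (tens U : Matrix (V × Bool × S) (V × Bool × S) ℂ) ∈ Matrix.unitaryGroup _ ℂ :=
  Matrix.kronecker_mem_unitary (one_mem _) (Matrix.kronecker_mem_unitary (one_mem _) hU)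

lemma tens_emb (v0 : V) (U : Matrix S S ℂ) (u : S → ℂ) :
    (tens U).mulVec (emb v0 u) = emb v0 (U.mulVec u) := by
  funext ⟨v, b, s⟩
  simp only [tens, emb, Matrix.mulVec, dotProduct, Fintype.sum_prod_type, Matrix.kroneckerMap_apply,
    Matrix.one_apply]
  by_cases hv : v = v0
  · subst hv
    cases b <;> simp
  · simp [hv]

/-- the literal label of an optional label -/
def lb (v0 : V) (o : Option V) : V := o.getD v0

/-- the number `1 / √2` -/
noncomputable def r2 : ℂ := (((Real.sqrt 2)⁻¹ : ℝ) : ℂ)

lemma r2_sq : r2 * r2 = 1 / 2 := by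
  unfold r2
  rw [← Complex.ofReal_mul, ← mul_inv, Real.mul_self_sqrt (by norm_num)]
  norm_num

lemma r2_conj : (starRingEnd ℂ) r2 = r2 := Complex.conj_ofReal _

/-- amplitude of the answer bit: `+` for no query and `-` for a query -/
noncomputable def cc (o : Option V) (b : Bool) : ℂ :=
  r2 * (if o.isSome && b then -1 else 1)

lemma cc_norm (o : Option V) : ∑ b, star (cc o b) * cc o b = 1 := by
  have h := r2_sq
  rw [Fintype.sum_bool]
  unfold cc
  cases o with
  | none =>
    simp only [Option.isSome_none, Bool.false_and, Bool.false_eq_true, if_false, mul_one,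
      Complex.star_def, r2_conj]
    rw [h]; norm_num
  | some v =>
    simp only [Option.isSome_some, Bool.true_and, Bool.false_eq_true, if_false, if_true, mul_one,
      Complex.star_def, r2_conj, map_mul, map_neg, map_one]
    have h2 : r2 * -1 * (r2 * -1) = 1 / 2 := by
      rw [← h]; ring
    rw [h, h2]; norm_num

lemma exists_K (v0 : V) (lab : S → Option V) :
    ∃ K ∈ Matrix.unitaryGroup (V × Bool × S) ℂ, ∀ u : S → ℂ,
      K.mulVec (emb v0 u) = fun p => (if p.1 = lb v0 (lab p.2.2) then cc (lab p.2.2) p.2.1 else 0) *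
        u p.2.2 := by
  obtain ⟨K, hK, h⟩ := exists_unitary_cols (S := V × Bool × S) (X := S)
    (fun s => (v0, false, s)) (fun a b h => by simpa using h)
    (fun s p => if p.2.2 = s ∧ p.1 = lb v0 (lab s) then cc (lab s) p.2.1 else 0) (by
      intro a b
      simp only [Fintype.sum_prod_type]
      by_cases hab : a = b
      · subst hab
        rw [if_pos rfl]
        rw [Finset.sum_eq_single (lb v0 (lab a))]
        · rw [← cc_norm (lab a)]
          refine Finset.sum_congr rfl fun b _ => ?_
          rw [Finset.sum_eq_single a]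
          · simp
          · intro c _ hc
            simp [hc]
          · simp
        · intro c _ hc
          simp [hc]
        · simp
      · rw [if_neg hab]
        refine Finset.sum_eq_zero fun v _ => Finset.sum_eq_zero fun c _ =>
          Finset.sum_eq_zero fun s _ => ?_
        by_cases h1 : s = a
        · subst h1
          simp [hab]
        · simp [h1])
  refine ⟨K, hK, fun u => ?_⟩
  funext ⟨v, b, s⟩
  simp only [Matrix.mulVec, dotProduct, emb, Fintype.sum_prod_type]
  rw [Finset.sum_eq_single v0]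
  · rw [Fintype.sum_bool]
    have h1 : ∀ s', K (v, b, s) (v0, false, s') =
        if s = s' ∧ v = lb v0 (lab s') then cc (lab s') b else 0 := fun s' => h s' (v, b, s)
    simp only [h1]
    rw [Finset.sum_eq_zero (fun s' _ => by simp), zero_add, Finset.sum_eq_single s]
    · simp
    · intro c _ hc
      simp [Ne.symm hc]
    · simp
  · intro c _ hc
    simp [hc]
  · simp

lemma oracle_K (v0 : V) (lab : S → Option V) (x : V → Bool) (u : S → ℂ) :
    oracle x (fun p => (if p.1 = lb v0 (lab p.2.2) then cc (lab p.2.2) p.2.1 else 0) *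
        u p.2.2) =
      fun p => (if p.1 = lb v0 (lab p.2.2) then cc (lab p.2.2) p.2.1 else 0) *
        (ph x (lab p.2.2) * u p.2.2) := by
  funext ⟨v, b, s⟩
  simp only [oracle]
  by_cases hv : v = lb v0 (lab s)
  · rw [if_pos hv, if_pos hv]
    rcases hl : lab s with _ | w
    · simp [cc, ph]
    · have hw : v = w := by rw [hv, hl]; rfl
      subst hw
      rcases hx : x v with _ | _ <;> rcases b with _ | _ <;> simp [cc, ph, hx]
  · rw [if_neg hv, if_neg hv, zero_mul, zero_mul]

theorem QU.lit {q : ℕ} {A : (V → Bool) → Matrix S S ℂ} (hA : QU q A) (v0 : V) (s0 : S) :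
    ∃ G : ℕ → Matrix (V × Bool × S) (V × Bool × S) ℂ,
      (∀ t, G t ∈ Matrix.unitaryGroup _ ℂ) ∧
      ∀ x, st (emb v0 (Pi.single s0 1)) G x q = emb v0 (fun s => A x s s0) := by
  induction q generalizing A with
  | zero =>
    obtain ⟨U, hU, rfl⟩ := hA
    refine ⟨fun _ => tens U, fun _ => tens_unitary hU, fun x => ?_⟩
    simp only [st]
    rw [tens_emb]
    congr 1
    funext s
    simp
  | succ q ih =>
    obtain ⟨U, hU, lab, B, hB, rfl⟩ := hA
    obtain ⟨G, hG, h⟩ := ih hB
    obtain ⟨K, hK, hKe⟩ := exists_K v0 lab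
    refine ⟨fun t => if t < q then G t else if t = q then K * G t else tens U * Kᴴ, ?_, ?_⟩
    · intro t
      dsimp only
      split_ifs
      · exact hG t
      · exact mul_mem hK (hG t)
      · refine mul_mem (tens_unitary hU) ?_
        rw [← Matrix.star_eq_conjTranspose]
        exact Unitary.star_mem hK
    · intro x
      simp only [st]
      rw [if_neg (by omega), if_neg (by omega)]
      rw [st_mul (G := G) (emb v0 (Pi.single s0 1)) K x (n := q)
        (fun t ht => by simp only [if_pos ht]) (by simp)]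
      have h6 := (oracle_K v0 lab x (fun s => B x s s0)).trans
        (hKe (fun s => ph x (lab s) * B x s s0)).symm
      rw [h x, hKe]
      refine (congrArg ((tens U * Kᴴ).mulVec) h6).trans ?_
      rw [Matrix.mulVec_mulVec, Matrix.mul_assoc]
      have h1 : Kᴴ * K = 1 := by
        have := (Matrix.mem_unitaryGroup_iff').1 hK
        rwa [Matrix.star_eq_conjTranspose] at this
      rw [h1, Matrix.mul_one, tens_emb]
      congr 1
      funext s
      rw [Matrix.mul_assoc, Matrix.mul_apply]
      simp only [Matrix.mulVec, dotProduct, Matrix.diagonal_mul]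

/-- internal kernels are literal kernels -/
theorem RK.realizable [Nonempty V] {R : Type} [DecidableEq R] {q : ℕ}
    {μ : (V → Bool) → R → ℝ} (h : RK q μ) : Realizable q μ := by
  obtain ⟨S, i1, i2, A, s0, out, hA, h⟩ := h
  obtain ⟨v0⟩ := ‹Nonempty V›
  obtain ⟨G, hG, hst⟩ := hA.lit v0 s0
  have hinit : ∑ p, ‖(emb v0 (Pi.single s0 1) : V × Bool × S → ℂ) p‖ ^ 2 = 1 := by
    simp only [emb, Fintype.sum_prod_type]
    rw [Finset.sum_eq_single v0]
    · rw [Fintype.sum_bool, Finset.sum_eq_zero (fun s _ => by simp), zero_add,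
        Finset.sum_eq_single s0]
      · simp
      · intro s _ hs
        simp [hs]
      · simp
    · intro c _ hc
      simp [hc]
    · simp
  refine ⟨q, le_rfl, mkAlg _ hinit G hG (fun p => out p.2.2) q, fun x r => ?_⟩
  unfold QAlg.prob
  rw [mkAlg_state _ _ _ _ _ _ x le_rfl, hst x, ← h x r]
  show (∑ p : V × Bool × S, if out p.2.2 = r then ‖emb v0 (fun s => A x s s0) p‖ ^ 2 else 0) = _
  simp only [emb, Fintype.sum_prod_type]
  rw [Finset.sum_eq_single v0]
  · rw [Fintype.sum_bool, Finset.sum_eq_zero (fun s _ => by simp), zero_add]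
    simp
  · intro c _ hc
    simp [hc]
  · simp

end Lit

section Rev

variable {V W : Type} [Fintype V] [DecidableEq V] [Fintype W] [DecidableEq W]

/-- Hadamard matrix on a bit -/
noncomputable def hb : Matrix Bool Bool ℂ :=
  Matrix.of fun b c => r2 * (if b && c then -1 else 1)

lemma hb_unitary : hb ∈ Matrix.unitaryGroup Bool ℂ := by
  rw [Matrix.mem_unitaryGroup_iff']
  have h := r2_sq
  ext b c
  rw [Matrix.mul_apply, Fintype.sum_bool]
  simp only [Matrix.star_apply, hb, Matrix.of_apply, Complex.star_def, map_mul, r2_conj]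
  rcases b with _ | _ <;> rcases c with _ | _ <;> simp
  · linear_combination (2 : ℂ) * h
  · linear_combination (2 : ℂ) * h

/-- Hadamard gate on the answer bit -/
noncomputable def Hb : Matrix (V × Bool × W) (V × Bool × W) ℂ :=
  (1 : Matrix V V ℂ) ⊗ₖ (hb ⊗ₖ (1 : Matrix W W ℂ))

lemma Hb_unitary : (Hb : Matrix (V × Bool × W) (V × Bool × W) ℂ) ∈ Matrix.unitaryGroup _ ℂ :=
  Matrix.kronecker_mem_unitary (one_mem _) (Matrix.kronecker_mem_unitary hb_unitary (one_mem _))

lemma Hb_mulVec (ψ : V × Bool × W → ℂ) (v : V) (b : Bool) (w : W) :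
    (Hb.mulVec ψ) (v, b, w) = r2 *
      (ψ (v, false, w) + (if b then -1 else 1) * ψ (v, true, w)) := by
  simp only [Hb, Matrix.mulVec, dotProduct, Fintype.sum_prod_type, Matrix.kroneckerMap_apply,
    Matrix.one_apply, hb, Matrix.of_apply]
  rw [Finset.sum_eq_single v, Fintype.sum_bool, Finset.sum_eq_single w, Finset.sum_eq_single w]
  · cases b <;> simp <;> ring
  · intro c _ hc
    simp [Ne.symm hc]
  · simp
  · intro c _ hc
    simp [Ne.symm hc]
  · simp
  · intro c _ hc
    simp [Ne.symm hc]
  · simp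

lemma oracle_eq (x : V → Bool) (ψ : V × Bool × W → ℂ) :
    oracle x ψ = (Hb * Matrix.diagonal (fun p : V × Bool × W =>
      ph x (if p.2.1 then some p.1 else none)) * Hb).mulVec ψ := by
  have h := r2_sq
  rw [← Matrix.mulVec_mulVec, ← Matrix.mulVec_mulVec]
  funext ⟨v, b, w⟩
  rw [Hb_mulVec, Matrix.mulVec_diagonal, Matrix.mulVec_diagonal, Hb_mulVec, Hb_mulVec]
  simp only [oracle]
  rcases hx : x v with _ | _ <;> rcases b with _ | _ <;> simp [ph, hx]
  all_goals
    first
      | linear_combination (-2 * ψ (v, false, w)) * h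
      | linear_combination (-2 * ψ (v, true, w)) * h

/-- literal kernels are internal kernels -/
theorem Realizable.rk {R : Type} [DecidableEq R] {q : ℕ}
    {μ : (V → Bool) → R → ℝ} (h : Realizable q μ) : RK q μ := by
  obtain ⟨T, hT, Alg, h⟩ := h
  refine RK.mono hT ?_
  have hp : ∃ p0, Alg.init p0 ≠ 0 := by
    by_contra hcon
    push Not at hcon
    have := Alg.init_norm
    rw [Finset.sum_eq_zero (fun p _ => by rw [hcon p]; simp)] at this
    exact zero_ne_one this
  obtain ⟨p0, -⟩ := hp
  obtain ⟨W0, hW0, hcol⟩ := exists_unitary_col p0 Alg.init Alg.init_norm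
  have key : ∀ t ≤ T, ∃ A : (V → Bool) → Matrix (V × Bool × Alg.W) (V × Bool × Alg.W) ℂ,
      QU t A ∧ ∀ x, Alg.state x t = fun p => A x p p0 := by
    intro t
    induction t with
    | zero =>
      intro _
      refine ⟨fun _ => Alg.U 0 * W0, QU.const (mul_mem (Alg.unitary 0) hW0), fun x => ?_⟩
      funext p
      simp only [QAlg.state, Matrix.mulVec, dotProduct, Matrix.mul_apply, hcol]
    | succ t ih =>
      intro ht
      obtain ⟨A, hA, hst⟩ := ih (by omega)
      have hB : QU t (fun x => Hb * A x) := by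
        have := (QU.const (V := V) (Hb_unitary (V := V) (W := Alg.W))).mul hA
        rwa [Nat.zero_add] at this
      refine ⟨_, ⟨Alg.U (Fin.ofNat (T + 1) (t + 1)) * Hb, mul_mem (Alg.unitary _) Hb_unitary,
        fun p : V × Bool × Alg.W => if p.2.1 then some p.1 else none, _, hB, rfl⟩, fun x => ?_⟩
      funext p
      simp only [QAlg.state]
      rw [oracle_eq, hst x, Matrix.mulVec_mulVec]
      simp only [Matrix.mulVec, dotProduct]
      rw [← Matrix.mul_apply]
      simp only [Matrix.mul_assoc]
  obtain ⟨A, hA, hst⟩ := key T le_rfl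
  refine ⟨V × Bool × Alg.W, inferInstance, inferInstance, A, p0, Alg.out, hA, fun x r => ?_⟩
  rw [← h x r]
  unfold QAlg.prob
  rw [hst x]

/-- the two models agree -/
theorem rk_iff_realizable [Nonempty V] {R : Type} [DecidableEq R] {q : ℕ}
    {μ : (V → Bool) → R → ℝ} : RK q μ ↔ Realizable q μ :=
  ⟨RK.realizable, Realizable.rk⟩

end Rev

end Q
end P362
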