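import Vale.Agent.Lib.P362.Q.Bind
import Vale.Agent.Lib.P362.F.Norm

/-!
# P362, part Q: the Hadamard test for Forrelation
-/

namespace P362
namespace Q

open Matrix

variable {V : Type}

/-- normalized Walsh-Hadamard matrix -/
noncomputable def hadM (l : ℕ) : Matrix (I l) (I l) ℂ :=
  Matrix.of fun i k => (((had i k : ℝ) / Real.sqrt (2 ^ l) : ℝ) : ℂ)

theorem hadM_mem (l : ℕ) : hadM l ∈ Matrix.unitaryGroup (I l) ℂ := by
  rw [Matrix.mem_unitaryGroup_iff, star_eq_conjTranspose]
  ext i j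
  rw [mul_apply]
  have hs : Real.sqrt ((2 : ℝ) ^ l) * Real.sqrt ((2 : ℝ) ^ l) = 2 ^ l :=
    Real.mul_self_sqrt (by positivity)
  have h1 : ∀ k, hadM l i k * (hadM l)ᴴ k j =
      (((had i k : ℝ) * (had j k : ℝ) / 2 ^ l : ℝ) : ℂ) := by
    intro k
    rw [conjTranspose_apply]
    unfold hadM
    rw [of_apply, of_apply, Complex.star_def, Complex.conj_ofReal, ← Complex.ofReal_mul,
      div_mul_div_comm, hs]
  rw [Finset.sum_congr rfl fun k _ => h1 k, ← Complex.ofReal_sum, ← Finset.sum_div, had_orth]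
  by_cases h : i = j
  · subst h
    rw [if_pos rfl, div_self (by positivity), one_apply_eq, Complex.ofReal_one]
  · rw [if_neg h, zero_div, one_apply_ne h, Complex.ofReal_zero]

/-- the product `X_0 H X_1 H ... H X_m` -/
noncomputable def fM {l : ℕ} : (m : ℕ) → (Fin (m + 1) × I l → V) → (V → Bool) →
    Matrix (I l) (I l) ℂ
  | 0, w, x => Matrix.diagonal (fun i => ph x (some (w (0, i))))
  | m + 1, w, x => Matrix.diagonal (fun i => ph x (some (w (0, i)))) *
      (hadM l * fM m (fun p => w (p.1.succ, p.2)) x)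

theorem fM_QU {l : ℕ} (m : ℕ) (w : Fin (m + 1) × I l → V) : QU (m + 1) (fM m w) := by
  induction m with
  | zero => exact QU.query fun i => some (w (0, i))
  | succ m ih =>
    have h := (QU.query (V := V) fun i => some (w (0, i))).mul
      ((QU.const (V := V) (hadM_mem l)).mul (ih fun p => w (p.1.succ, p.2)))
    have e : 1 + (0 + (m + 1)) = m + 1 + 1 := by omega
    rw [e] at h
    exact h

theorem ph_eq_sgn (x : V → Bool) (v : V) : ph x (some v) = (((sgn (x v) : ℤ) : ℝ) : ℂ) := by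
  cases hx : x v <;> simp [ph, sgn, hx]

theorem fM_sum {l : ℕ} (m : ℕ) (w : Fin (m + 1) × I l → V) (x : V → Bool) (u : I l → ℝ) :
    ∑ i, (u i : ℂ) * ∑ k, fM m w x i k =
      ((gg m l (fun p => x (w p)) u / Real.sqrt (2 ^ l) ^ m : ℝ) : ℂ) := by
  induction m generalizing u with
  | zero =>
    rw [gg_zero, pow_zero, div_one, Complex.ofReal_sum]
    refine Finset.sum_congr rfl fun i _ => ?_
    have h1 : ∑ k, fM 0 w x i k = ph x (some (w (0, i))) := by
      rw [Finset.sum_eq_single i]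
      · unfold fM
        rw [diagonal_apply_eq]
      · intro k _ hk
        unfold fM
        rw [diagonal_apply_ne _ (Ne.symm hk)]
      · intro h
        exact absurd (Finset.mem_univ _) h
    rw [h1, ph_eq_sgn, Complex.ofReal_mul]
  | succ m ih =>
    have hpos : Real.sqrt ((2 : ℝ) ^ l) ≠ 0 := (Real.sqrt_pos.2 (by positivity)).ne'
    have h1 : ∀ i, ∑ k, fM (m + 1) w x i k = ph x (some (w (0, i))) *
        ∑ j, hadM l i j * ∑ k, fM m (fun p => w (p.1.succ, p.2)) x j k := by
      intro i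
      have h2 : ∀ k, fM (m + 1) w x i k = ph x (some (w (0, i))) *
          ∑ j, hadM l i j * fM m (fun p => w (p.1.succ, p.2)) x j k := by
        intro k
        rw [fM, diagonal_mul, mul_apply]
      rw [Finset.sum_congr rfl fun k _ => h2 k, ← Finset.mul_sum, Finset.sum_comm]
      congr 1
      refine Finset.sum_congr rfl fun j _ => ?_
      rw [Finset.mul_sum]
    have h3 : ∑ i, (u i : ℂ) * ∑ k, fM (m + 1) w x i k =
        ∑ j, ((((∑ i, u i * (sgn (x (w (0, i))) : ℝ) * (had i j : ℝ)) /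
          Real.sqrt (2 ^ l) : ℝ) : ℂ)) * ∑ k, fM m (fun p => w (p.1.succ, p.2)) x j k := by
      rw [Finset.sum_congr rfl fun i _ => by rw [h1 i]]
      have h4 : ∀ i, (u i : ℂ) * (ph x (some (w (0, i))) *
          ∑ j, hadM l i j * ∑ k, fM m (fun p => w (p.1.succ, p.2)) x j k) =
          ∑ j, ((u i * (sgn (x (w (0, i))) : ℝ) * (had i j : ℝ) / Real.sqrt (2 ^ l) : ℝ) : ℂ) *
            ∑ k, fM m (fun p => w (p.1.succ, p.2)) x j k := by
        intro i
        rw [Finset.mul_sum, Finset.mul_sum]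
        refine Finset.sum_congr rfl fun j _ => ?_
        rw [ph_eq_sgn]
        unfold hadM
        rw [of_apply]
        push_cast
        ring
      rw [Finset.sum_congr rfl fun i _ => h4 i, Finset.sum_comm]
      refine Finset.sum_congr rfl fun j _ => ?_
      rw [← Finset.sum_mul, Finset.sum_div, Complex.ofReal_sum]
    have h5 : ∑ j, ((((∑ i, u i * (sgn (x (w (0, i))) : ℝ) * (had i j : ℝ)) /
          Real.sqrt (2 ^ l) : ℝ) : ℂ)) * ∑ k, fM m (fun p => w (p.1.succ, p.2)) x j k =
        (1 / Real.sqrt (2 ^ l) : ℝ) * ∑ j, (((∑ i, u i * (sgn (x (w (0, i))) : ℝ) *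
          (had i j : ℝ)) : ℝ) : ℂ) * ∑ k, fM m (fun p => w (p.1.succ, p.2)) x j k := by
      rw [Finset.mul_sum]
      refine Finset.sum_congr rfl fun j _ => ?_
      rw [← mul_assoc, ← Complex.ofReal_mul, one_div_mul_eq_div]
    rw [h3, h5, ih, gg_succ, ← Complex.ofReal_mul]
    congr 1
    field_simp
    ring

/-- the row sums, as real numbers -/
noncomputable def rowR {l : ℕ} (m : ℕ) (w : Fin (m + 1) × I l → V) (x : V → Bool) (i : I l) : ℝ :=
  gg m l (fun p => x (w p)) (Pi.single i 1) / Real.sqrt (2 ^ l) ^ m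

theorem row_sum {l : ℕ} (m : ℕ) (w : Fin (m + 1) × I l → V) (x : V → Bool) (i : I l) :
    ∑ k, fM m w x i k = (rowR m w x i : ℂ) := by
  have h := fM_sum m w x (Pi.single i 1)
  rw [Finset.sum_eq_single i] at h
  · rw [Pi.single_eq_same, Complex.ofReal_one, one_mul] at h
    rw [h, rowR]
  · intro j _ hj
    rw [Pi.single_eq_of_ne hj, Complex.ofReal_zero, zero_mul]
  · intro h'
    exact absurd (Finset.mem_univ _) h'

theorem sum_rowR {l : ℕ} (m : ℕ) (w : Fin (m + 1) × I l → V) (x : V → Bool) :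
    ∑ i, rowR m w x i = 2 ^ l * forr m l (fun p => x (w p)) := by
  have h := fM_sum m w x (fun _ => 1)
  have h1 : ∑ i, ((1 : ℝ) : ℂ) * ∑ k, fM m w x i k = ((∑ i, rowR m w x i : ℝ) : ℂ) := by
    rw [Complex.ofReal_sum]
    refine Finset.sum_congr rfl fun i _ => ?_
    rw [row_sum, Complex.ofReal_one, one_mul]
  rw [h1] at h
  have h2 := Complex.ofReal_injective h
  rw [h2]
  have hs : Real.sqrt ((2 : ℝ) ^ l) ^ 2 = 2 ^ l := Real.sq_sqrt (by positivity)
  have hpos : Real.sqrt ((2 : ℝ) ^ l) ≠ 0 := (Real.sqrt_pos.2 (by positivity)).ne'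
  have h3 : gg m l (fun p => x (w p)) (fun _ => 1) = (forrZ m l (fun p => x (w p)) : ℝ) := by
    unfold gg forrZ
    push_cast
    refine Finset.sum_congr rfl fun i _ => ?_
    rw [one_mul]
  rw [h3, forr, pow_add, hs]
  field_simp

theorem sum_sq_rowR {l : ℕ} (m : ℕ) (w : Fin (m + 1) × I l → V) (x : V → Bool) :
    ∑ i, rowR m w x i ^ 2 = 2 ^ l := by
  have hU := (fM_QU m w).mem x
  rw [Matrix.mem_unitaryGroup_iff', star_eq_conjTranspose] at hU
  have h1 : ∀ i, ((rowR m w x i ^ 2 : ℝ) : ℂ) =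
      ∑ k, ∑ k', (fM m w x)ᴴ k i * fM m w x i k' := by
    intro i
    have h2 := row_sum m w x i
    have h3 : ∑ k, (fM m w x)ᴴ k i = (rowR m w x i : ℂ) := by
      have h4 := congrArg star h2
      rw [star_sum, Complex.star_def, Complex.conj_ofReal] at h4
      rw [← h4]
      refine Finset.sum_congr rfl fun k _ => ?_
      rw [conjTranspose_apply]
      rfl
    rw [← Finset.sum_mul_sum, h3, h2, sq, Complex.ofReal_mul]
  have h5 : ((∑ i, rowR m w x i ^ 2 : ℝ) : ℂ) = ((2 ^ l : ℝ) : ℂ) := by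
    rw [Complex.ofReal_sum, Finset.sum_congr rfl fun i _ => h1 i, Finset.sum_comm]
    have h6 : ∀ k : I l, ∑ i, ∑ k', (fM m w x)ᴴ k i * fM m w x i k' = 1 := by
      intro k
      rw [Finset.sum_comm]
      have h7 : ∀ k', ∑ i, (fM m w x)ᴴ k i * fM m w x i k' = if k = k' then 1 else 0 := by
        intro k'
        rw [← mul_apply, hU, one_apply]
      rw [Finset.sum_congr rfl fun k' _ => h7 k', Finset.sum_ite_eq]
      simp
    rw [Finset.sum_congr rfl fun k _ => h6 k]
    simp [I]
  exact Complex.ofReal_injective h5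

/-- the Hadamard test -/
theorem rk_forr (m l : ℕ) (w : Fin (m + 1) × I l → V) :
    RK (m + 1) (fun (x : V → Bool) (r : Bool) =>
      if r then (1 + forr m l (fun p => x (w p))) / 2
      else (1 - forr m l (fun p => x (w p))) / 2) := by
  have hN : (0 : ℝ) < 2 * 2 ^ l := by positivity
  obtain ⟨κ, hκ⟩ : ∃ κ : ℝ, κ = 1 / Real.sqrt (2 * 2 ^ l) := ⟨_, rfl⟩
  have hκ2 : κ * κ = 1 / (2 * 2 ^ l) := by
    rw [hκ, div_mul_div_comm, one_mul, Real.mul_self_sqrt hN.le]
  obtain ⟨s0, -⟩ : ∃ s0 : Σ _ : Bool, I l, True := ⟨⟨false, fun _ => false⟩, trivial⟩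
  -- preparation
  obtain ⟨W, hW, hWc⟩ := ext_unitary (S := Unit) (B := Σ _ : Bool, I l) (fun _ => s0)
    (fun _ _ _ => Subsingleton.elim _ _) (fun _ _ => (κ : ℂ)) (by
      intro s s'
      rw [if_pos (Subsingleton.elim s s')]
      have h1 : star (κ : ℂ) * (κ : ℂ) = ((1 / (2 * 2 ^ l) : ℝ) : ℂ) := by
        rw [Complex.star_def, Complex.conj_ofReal, ← Complex.ofReal_mul, hκ2]
      simp_rw [h1]
      rw [Finset.sum_const, nsmul_eq_mul]
      have h2 : (Finset.univ : Finset (Σ _ : Bool, I l)).card = 2 * 2 ^ l := by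
        simp [I]
      rw [h2]
      push_cast
      have : (2 * 2 ^ l : ℂ) ≠ 0 := mul_ne_zero two_ne_zero (pow_ne_zero _ two_ne_zero)
      field_simp)
  -- controlled program
  obtain ⟨A, hA⟩ : ∃ A : Bool → (V → Bool) → Matrix (I l) (I l) ℂ,
      A = fun b x => if b then fM m w x else 1 := ⟨_, rfl⟩
  have hAQ : ∀ b, QU (m + 1) (A b) := by
    intro b
    rw [hA]
    cases b with
    | false =>
      exact (QU.const (V := V) (one_mem (Matrix.unitaryGroup (I l) ℂ))).mono (Nat.zero_le _)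
    | true => exact fM_QU m w
  have hC : QU (m + 1) (fun x => Matrix.blockDiagonal' (fun b => A b x)) :=
    QU.block (S := fun _ : Bool => I l) hAQ
  -- Hadamard gate on the control bit
  have hH : QU (V := V) 0 (fun _ => (Matrix.blockDiagonal (fun _ : I l => hgate)).submatrix
      (Equiv.sigmaEquivProd Bool (I l)) (Equiv.sigmaEquivProd Bool (I l))) :=
    ((QU.const (V := V) hgate_mem).prodOne (S' := I l)).reindex (Equiv.sigmaEquivProd Bool (I l))
  have hAll := hH.mul (hC.mul (QU.const (V := V) hW))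
  have e0 : 0 + (m + 1 + 0) = m + 1 := by omega
  rw [e0] at hAll
  refine ⟨Σ _ : Bool, I l, inferInstance, inferInstance, _, s0, fun s => !s.1, hAll,
    fun x r => ?_⟩
  -- amplitudes
  have e1 : ∀ (b : Bool) (i : I l), (Matrix.blockDiagonal' (fun b => A b x) * W) ⟨b, i⟩ s0 =
      if b then (κ : ℂ) * (rowR m w x i : ℂ) else (κ : ℂ) := by
    intro b i
    rw [mul_apply, Fintype.sum_sigma, Finset.sum_eq_single b]
    · have h1 : ∀ y : I l, Matrix.blockDiagonal' (fun b => A b x) ⟨b, i⟩ ⟨b, y⟩ *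
          W ⟨b, y⟩ s0 = A b x i y * (κ : ℂ) := by
        intro y
        rw [blockDiagonal'_apply_eq, hWc () ⟨b, y⟩]
      rw [Finset.sum_congr rfl fun y _ => h1 y, ← Finset.sum_mul]
      rw [hA]
      cases b with
      | false =>
        simp [Matrix.one_apply]
      | true =>
        simp only [if_true]
        rw [row_sum, mul_comm]
    · intro b' _ hb'
      refine Finset.sum_eq_zero fun y _ => ?_
      rw [blockDiagonal'_apply_ne _ _ _ (Ne.symm hb'), zero_mul]
    · intro h
      exact absurd (Finset.mem_univ _) h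
  have e2 : ∀ (b : Bool) (i : I l), ((Matrix.blockDiagonal (fun _ : I l => hgate)).submatrix
      (Equiv.sigmaEquivProd Bool (I l)) (Equiv.sigmaEquivProd Bool (I l)) *
        (Matrix.blockDiagonal' (fun b => A b x) * W)) ⟨b, i⟩ s0 =
      hgate b true * ((κ : ℂ) * (rowR m w x i : ℂ)) + hgate b false * (κ : ℂ) := by
    intro b i
    rw [mul_apply, Fintype.sum_sigma, Fintype.sum_bool]
    have h1 : ∀ b' : Bool, ∑ y : I l, (Matrix.blockDiagonal (fun _ : I l => hgate)).submatrix
        (Equiv.sigmaEquivProd Bool (I l)) (Equiv.sigmaEquivProd Bool (I l)) ⟨b, i⟩ ⟨b', y⟩ *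
          (Matrix.blockDiagonal' (fun b => A b x) * W) ⟨b', y⟩ s0 =
        hgate b b' * (if b' then (κ : ℂ) * (rowR m w x i : ℂ) else (κ : ℂ)) := by
      intro b'
      rw [Finset.sum_eq_single i]
      · rw [submatrix_apply, e1]
        simp [blockDiagonal_apply]
      · intro y _ hy
        rw [submatrix_apply]
        simp [blockDiagonal_apply, Ne.symm hy]
      · intro h
        exact absurd (Finset.mem_univ _) h
    rw [h1, h1]
    simp
  have h2 : Real.sqrt 2 / 2 * (Real.sqrt 2 / 2) = 1 / 2 := by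
    have := Real.mul_self_sqrt (show (0 : ℝ) ≤ 2 by norm_num)
    nlinarith
  have e3 : ∀ (b : Bool) (i : I l), ‖((Matrix.blockDiagonal (fun _ : I l => hgate)).submatrix
      (Equiv.sigmaEquivProd Bool (I l)) (Equiv.sigmaEquivProd Bool (I l)) *
        (Matrix.blockDiagonal' (fun b => A b x) * W)) ⟨b, i⟩ s0‖ ^ 2 =
      1 / (4 * 2 ^ l) * (1 + (if b then -1 else 1) * rowR m w x i) ^ 2 := by
    intro b i
    rw [e2]
    have h3 : hgate b true * ((κ : ℂ) * (rowR m w x i : ℂ)) + hgate b false * (κ : ℂ) =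
        ((Real.sqrt 2 / 2 * κ * (1 + (if b then -1 else 1) * rowR m w x i) : ℝ) : ℂ) := by
      unfold hgate
      cases b <;> simp <;> ring
    rw [h3, Complex.norm_real, Real.norm_eq_abs, sq_abs, mul_pow, mul_pow, sq (Real.sqrt 2 / 2),
      h2, sq κ, hκ2]
    congr 1
    field_simp
    norm_num
  have e4 : ∀ b : Bool, ∑ i, ‖((Matrix.blockDiagonal (fun _ : I l => hgate)).submatrix
      (Equiv.sigmaEquivProd Bool (I l)) (Equiv.sigmaEquivProd Bool (I l)) *
        (Matrix.blockDiagonal' (fun b => A b x) * W)) ⟨b, i⟩ s0‖ ^ 2 =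
      (1 + (if b then -1 else 1) * forr m l (fun p => x (w p))) / 2 := by
    intro b
    rw [Finset.sum_congr rfl fun i _ => e3 b i, ← Finset.mul_sum]
    have h4 : ∀ i, (1 + (if b then -1 else 1) * rowR m w x i) ^ 2 =
        1 + 2 * (if b then -1 else 1) * rowR m w x i + rowR m w x i ^ 2 := by
      intro i
      cases b <;> simp <;> ring
    rw [Finset.sum_congr rfl fun i _ => h4 i, Finset.sum_add_distrib, Finset.sum_add_distrib,
      ← Finset.mul_sum, sum_rowR, sum_sq_rowR]
    have h5 : ∑ _i : I l, (1 : ℝ) = 2 ^ l := by simp [I]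
    rw [h5]
    field_simp
    ring
  rw [Fintype.sum_sigma, Fintype.sum_bool]
  cases r with
  | false =>
    simp only [Bool.not_true, Bool.not_false, if_true, Bool.true_eq_false, if_false,
      Finset.sum_const_zero, add_zero]
    rw [e4]
    simp [sub_eq_add_neg]
  | true =>
    simp only [Bool.not_true, Bool.not_false, if_true, Bool.false_eq_true, if_false,
      Finset.sum_const_zero, zero_add]
    rw [e4]
    simp

end Q
end P362
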