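import Vale.Agent.Lib.P362.Interface
import Vale.Agent.Lib.P362.Q.Bind
import Vale.Agent.Lib.P362.Q.Bridge
import Vale.Agent.Lib.P362.Q.Amp
import Vale.Agent.Lib.P362.Q.Forr

/-! P362, part Q: the four interface statements. -/

namespace P362

theorem partQTree : PartQTree :=
  ⟨fun _ _ _ _ _ _ _ p h0 h1 => (Q.RK.const p h0 h1).realizable,
    fun _ _ _ _ _ _ _ t => (Q.RK.tree t).realizable⟩

theorem partQBind : PartQBind := by
  intro V _ _ _ R S _ _ _ _ q1 q2 μ ν h1 h2
  exact (Q.RK.bind (Q.Realizable.rk h1) fun r => Q.Realizable.rk (h2 r)).realizable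

theorem partQAmp : PartQAmp := by
  intro V _ _ _ R _ _ q μ G J hJ h
  obtain ⟨ν, h1, h2⟩ := Q.rk_amp (Q.Realizable.rk h) G J hJ
  exact ⟨ν, h1.realizable, h2⟩

theorem partQForr : PartQForr := by
  intro V _ _ _ m l w
  exact (Q.rk_forr m l w).realizable

end P362
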