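import Vale.Agent.Lib.P362.Q.Core

/-!
# P362, part Q: amplitude amplification with a fixed number of iterations
-/

namespace P362
namespace Q

open Matrix

variable {V : Type}

/-- coefficients of the good and of the bad part of the state after `j` Grover iterations -/
noncomputable def ampCoef (p : ℝ) : ℕ → ℝ × ℝ
  | 0 => (1, 1)
  | j + 1 => ((1 - 2 * p) * (ampCoef p j).1 + 2 * (1 - p) * (ampCoef p j).2,
      (1 - 2 * p) * (ampCoef p j).2 - 2 * p * (ampCoef p j).1)

theorem ampCoef_trig (t : ℝ) (j : ℕ) :
    Real.sin t * (ampCoef (Real.sin t ^ 2) j).1 = Real.sin ((2 * j + 1) * t) ∧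
      Real.cos t * (ampCoef (Real.sin t ^ 2) j).2 = Real.cos ((2 * j + 1) * t) := by
  induction j with
  | zero => simp [ampCoef]
  | succ j ih =>
    obtain ⟨h1, h2⟩ := ih
    have e : ((2 * ((j + 1 : ℕ) : ℝ) + 1) * t) = (2 * j + 1) * t + 2 * t := by
      push_cast
      ring
    rw [e, Real.sin_add, Real.cos_add, ← h1, ← h2, Real.sin_two_mul, Real.cos_two_mul]
    have hc : Real.cos t ^ 2 = 1 - Real.sin t ^ 2 := by
      have := Real.sin_sq_add_cos_sq t
      linarith
    simp only [ampCoef]
    constructor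
    · rw [hc]
      have : Real.cos t * (ampCoef (Real.sin t ^ 2) j).2 * (2 * Real.sin t * Real.cos t)
          = 2 * Real.sin t * (Real.cos t ^ 2) * (ampCoef (Real.sin t ^ 2) j).2 := by ring
      rw [this, hc]
      ring
    · rw [hc]
      ring

variable {S : Type} [Fintype S] [DecidableEq S]

/-- the diagonal matrix `2 |s0><s0| - 1` -/
def dZero (s0 : S) : Matrix S S ℂ := Matrix.diagonal fun s => if s = s0 then 1 else -1

/-- the diagonal matrix `1 - 2 P_G` -/
def dGood (g : S → Bool) : Matrix S S ℂ := Matrix.diagonal fun s => if g s then -1 else 1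

theorem dZero_mem (s0 : S) : dZero s0 ∈ Matrix.unitaryGroup S ℂ := by
  rw [Matrix.mem_unitaryGroup_iff, Matrix.star_eq_conjTranspose, dZero,
    Matrix.diagonal_conjTranspose, Matrix.diagonal_mul_diagonal]
  have : (fun i => (if i = s0 then (1 : ℂ) else -1) *
      (star fun s => if s = s0 then (1 : ℂ) else -1) i) = fun _ => (1 : ℂ) := by
    funext i
    simp only [Pi.star_apply]
    by_cases h : i = s0 <;> simp [h]
  rw [this, Matrix.diagonal_one]

theorem dGood_mem (g : S → Bool) : dGood g ∈ Matrix.unitaryGroup S ℂ := by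
  rw [Matrix.mem_unitaryGroup_iff, Matrix.star_eq_conjTranspose, dGood,
    Matrix.diagonal_conjTranspose, Matrix.diagonal_mul_diagonal]
  have : (fun i => (if g i then (-1 : ℂ) else 1) *
      (star fun s => if g s then (-1 : ℂ) else 1) i) = fun _ => (1 : ℂ) := by
    funext i
    simp only [Pi.star_apply]
    by_cases h : g i <;> simp [h]
  rw [this, Matrix.diagonal_one]

/-- one Grover iteration -/
def grover (A : Matrix S S ℂ) (s0 : S) (g : S → Bool) : Matrix S S ℂ :=
  A * dZero s0 * Aᴴ * dGood g

/-- `A (2 |s0><s0| - 1) A^*` applied to a vector -/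
theorem refl_mulVec {A : Matrix S S ℂ} (hA : A ∈ Matrix.unitaryGroup S ℂ) (s0 : S)
    (v : S → ℂ) :
    (A * dZero s0 * Aᴴ) *ᵥ v =
      (2 * ∑ s, star (A s s0) * v s) • (fun s => A s s0) - v := by
  have h0 : dZero s0 = (2 : ℂ) • Matrix.vecMulVec (Pi.single s0 1) (Pi.single s0 1) - 1 := by
    ext i j
    simp only [dZero, Matrix.diagonal_apply, Matrix.sub_apply, Matrix.smul_apply,
      Matrix.vecMulVec_apply, Matrix.one_apply, Pi.single_apply, smul_eq_mul]
    by_cases hij : i = j
    · subst hij
      by_cases hi : i = s0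
      · simp [hi]
        norm_num
      · simp [hi]
    · by_cases hi : i = s0
      · subst hi
        simp [hij, Ne.symm hij]
      · simp [hij, hi]
  rw [← Matrix.mulVec_mulVec, ← Matrix.mulVec_mulVec, h0, Matrix.sub_mulVec, Matrix.one_mulVec,
    Matrix.mulVec_sub]
  have h1 : A * Aᴴ = 1 := by
    have := Matrix.mem_unitaryGroup_iff.mp hA
    rwa [Matrix.star_eq_conjTranspose] at this
  have h3 : A *ᵥ (Aᴴ *ᵥ v) = v := by
    rw [Matrix.mulVec_mulVec, h1, Matrix.one_mulVec]
  rw [h3]
  congr 1
  funext s
  rw [Matrix.smul_mulVec, Matrix.mulVec_smul]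
  simp only [Pi.smul_apply, smul_eq_mul, Matrix.mulVec, Matrix.vecMulVec_apply, dotProduct,
    Matrix.conjTranspose_apply]
  have h2 : ∀ i : S, (∑ j, (Pi.single s0 (1 : ℂ) : S → ℂ) i * (Pi.single s0 (1 : ℂ) : S → ℂ) j *
      ∑ k, star (A k j) * v k) = (Pi.single s0 (1 : ℂ) : S → ℂ) i * ∑ k, star (A k s0) * v k := by
    intro i
    rw [Finset.sum_eq_single s0]
    · simp
    · intro b _ hb
      simp [hb]
    · intro h
      exact absurd (Finset.mem_univ _) h
  simp only [h2]
  rw [Finset.sum_eq_single s0]
  · simp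
    ring
  · intro b _ hb
    simp [hb]
  · intro h
    exact absurd (Finset.mem_univ _) h

theorem norm_col {A : Matrix S S ℂ} (hA : A ∈ Matrix.unitaryGroup S ℂ) (s0 : S) :
    ∑ s, ‖A s s0‖ ^ 2 = 1 := by
  have h1 := congrFun (congrFun (Matrix.mem_unitaryGroup_iff'.mp hA) s0) s0
  rw [Matrix.star_eq_conjTranspose, Matrix.mul_apply, Matrix.one_apply_eq] at h1
  have h2 : ((∑ s, ‖A s s0‖ ^ 2 : ℝ) : ℂ) = 1 := by
    rw [← h1]
    push_cast
    refine Finset.sum_congr rfl fun s _ => ?_
    rw [Matrix.conjTranspose_apply]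
    exact (RCLike.conj_mul (A s s0)).symm
  exact_mod_cast h2

/-- the state after `j` Grover iterations -/
theorem grover_pow {A : Matrix S S ℂ} (hA : A ∈ Matrix.unitaryGroup S ℂ) (s0 : S)
    (g : S → Bool) (j : ℕ) (s : S) :
    ((grover A s0 g) ^ j * A) s s0 =
      ((if g s then (ampCoef (∑ s, if g s then ‖A s s0‖ ^ 2 else 0) j).1
        else (ampCoef (∑ s, if g s then ‖A s s0‖ ^ 2 else 0) j).2 : ℝ) : ℂ) * A s s0 := by
  set p : ℝ := ∑ s, if g s then ‖A s s0‖ ^ 2 else 0 with hp
  induction j generalizing s with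
  | zero => simp [ampCoef]
  | succ j ih =>
    have h0 : ((grover A s0 g) ^ (j + 1) * A) s s0 =
        (grover A s0 g *ᵥ fun s => ((grover A s0 g) ^ j * A) s s0) s := by
      rw [pow_succ', Matrix.mul_assoc]
      rfl
    rw [h0]
    simp only [ih]
    set a : ℝ := (ampCoef p j).1 with ha
    set b : ℝ := (ampCoef p j).2 with hb
    have h1 : dGood g *ᵥ (fun s => ((if g s then a else b : ℝ) : ℂ) * A s s0) =
        fun s => ((if g s then -a else b : ℝ) : ℂ) * A s s0 := by
      funext s
      rw [dGood, Matrix.mulVec_diagonal]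
      by_cases h : g s <;> simp [h]
    rw [grover, ← Matrix.mulVec_mulVec, h1, refl_mulVec hA]
    have h2 : ∑ s, star (A s s0) * (((if g s then -a else b : ℝ) : ℂ) * A s s0) =
        ((b * (1 - p) - a * p : ℝ) : ℂ) := by
      have h3 : ∀ s, star (A s s0) * (((if g s then -a else b : ℝ) : ℂ) * A s s0) =
          (((if g s then -a else b) * ‖A s s0‖ ^ 2 : ℝ) : ℂ) := by
        intro s
        have h4 : star (A s s0) * A s s0 = ((‖A s s0‖ ^ 2 : ℝ) : ℂ) := by
          push_cast
          exact RCLike.conj_mul (A s s0)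
        calc star (A s s0) * (((if g s then -a else b : ℝ) : ℂ) * A s s0)
            = ((if g s then -a else b : ℝ) : ℂ) * (star (A s s0) * A s s0) := by ring
          _ = _ := by rw [h4]; push_cast; ring
      rw [Finset.sum_congr rfl fun s _ => h3 s, ← Complex.ofReal_sum]
      congr 1
      have h5 : ∀ s, (if g s then -a else b) * ‖A s s0‖ ^ 2 =
          b * ‖A s s0‖ ^ 2 - (a + b) * (if g s then ‖A s s0‖ ^ 2 else 0) := by
        intro s
        by_cases h : g s <;> simp [h]
        ring
      rw [Finset.sum_congr rfl fun s _ => h5 s, Finset.sum_sub_distrib, ← Finset.mul_sum,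
        ← Finset.mul_sum, norm_col hA, ← hp]
      ring
    rw [h2]
    simp only [Pi.sub_apply, Pi.smul_apply, smul_eq_mul, ampCoef, ← ha, ← hb]
    by_cases h : g s
    · rw [if_pos h, if_pos h]
      push_cast
      ring
    · rw [if_neg h, if_neg h]
      push_cast
      ring

theorem QU.grover_pow {q : ℕ} {A : (V → Bool) → Matrix S S ℂ} (hA : QU q A) (s0 : S)
    (g : S → Bool) (j : ℕ) :
    QU ((2 * j + 1) * q) (fun x => (grover (A x) s0 g) ^ j * A x) := by
  induction j with
  | zero => simpa using hA
  | succ j ih =>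
    have h1 : QU (q + (q + 0)) (fun x => A x * (dZero s0 * ((A x)ᴴ * dGood g))) := by
      have h2 := (hA.adj.mul (QU.const (V := V) (dGood_mem g)))
      have h3 := (QU.const (V := V) (dZero_mem s0)).mul h2
      rw [Nat.zero_add] at h3
      exact hA.mul h3
    have h4 := h1.mul ih
    have e : q + (q + 0) + (2 * j + 1) * q = (2 * (j + 1) + 1) * q := by ring
    rw [e] at h4
    have h5 : (fun x => (grover (A x) s0 g) ^ (j + 1) * A x) =
        fun x => A x * (dZero s0 * ((A x)ᴴ * dGood g)) * ((grover (A x) s0 g) ^ j * A x) := by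
      funext x
      rw [pow_succ', grover]
      simp only [Matrix.mul_assoc]
    rw [h5]
    exact h4

/-- amplitude amplification with `j` iterations -/
theorem RK.ampFixed {R : Type} [Fintype R] [DecidableEq R] {q : ℕ} {μ : (V → Bool) → R → ℝ}
    (h : RK q μ) (G : R → Bool) (j : ℕ) :
    RK ((2 * j + 1) * q) (fun (x : V → Bool) (o : Option R) =>
      match o with
      | some r => if G r then (ampCoef (∑ r, if G r then μ x r else 0) j).1 ^ 2 * μ x r else 0
      | none => (ampCoef (∑ r, if G r then μ x r else 0) j).2 ^ 2 *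
          ∑ r, if G r then 0 else μ x r) := by
  obtain ⟨S, i1, i2, A, s0, out, hA, hμ⟩ := h
  refine ⟨S, i1, i2, _, s0, fun s => if G (out s) then some (out s) else none,
    hA.grover_pow s0 (fun s => G (out s)) j, ?_⟩
  intro x o
  have hp : (∑ s, if G (out s) then ‖A x s s0‖ ^ 2 else 0) = ∑ r, if G r then μ x r else 0 := by
    have h1 : ∀ s, (if G (out s) then ‖A x s s0‖ ^ 2 else 0) =
        ∑ r, if G r then (if out s = r then ‖A x s s0‖ ^ 2 else 0) else 0 := by
      intro s
      rw [Finset.sum_eq_single (out s)]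
      · simp
      · intro r _ hr
        simp [Ne.symm hr]
      · intro h
        exact absurd (Finset.mem_univ _) h
    rw [Finset.sum_congr rfl fun s _ => h1 s, Finset.sum_comm]
    refine Finset.sum_congr rfl fun r _ => ?_
    by_cases hr : G r
    · simp only [hr, if_true]
      exact hμ x r
    · simp [hr]
  simp only [Q.grover_pow (hA.mem x) s0 (fun s => G (out s)) j, hp]
  set p : ℝ := ∑ r, if G r then μ x r else 0
  cases o with
  | none =>
    have h2 : ∀ s, (if (if G (out s) then some (out s) else none) = (none : Option R) then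
        ‖((if G (out s) then (ampCoef p j).1 else (ampCoef p j).2 : ℝ) : ℂ) * A x s s0‖ ^ 2
        else 0) = (ampCoef p j).2 ^ 2 *
          ∑ r, if G r then 0 else (if out s = r then ‖A x s s0‖ ^ 2 else 0) := by
      intro s
      rw [Finset.sum_eq_single (out s)]
      · by_cases hs : G (out s)
        · simp [hs]
        · simp [hs, mul_pow]
      · intro r _ hr
        simp [Ne.symm hr]
      · intro h
        exact absurd (Finset.mem_univ _) h
    rw [Finset.sum_congr rfl fun s _ => h2 s, ← Finset.mul_sum, Finset.sum_comm]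
    congr 1
    refine Finset.sum_congr rfl fun r _ => ?_
    by_cases hr : G r
    · simp [hr]
    · simp only [hr]
      simpa using hμ x r
  | some r =>
    by_cases hr : G r
    · simp only [hr, if_true]
      rw [← hμ x r, Finset.mul_sum]
      refine Finset.sum_congr rfl fun s _ => ?_
      by_cases hs : out s = r
      · subst hs
        simp [hr, mul_pow]
      · by_cases hg : G (out s) <;> simp [hs, hg]
    · simp only [hr]
      refine Finset.sum_eq_zero fun s _ => ?_
      by_cases hs : out s = r
      · subst hs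
        simp [hr]
      · by_cases hg : G (out s) <;> simp [hs, hg]

end Q
end P362
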