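import Vale.Agent.Lib.P362.Defs

/-! P362, part Q: internal model with labelled phase queries. -/

namespace P362
namespace Q

open Matrix

variable {V : Type}

/-- phase `(-1)^(x v)`; no query for `none` -/
def ph (x : V → Bool) : Option V → ℂ
  | none => 1
  | some v => if x v then -1 else 1

/-- input dependent matrices that are products of constant unitary matrices and at most `q`
labelled phase queries -/
def QU {S : Type} [Fintype S] [DecidableEq S] : ℕ → ((V → Bool) → Matrix S S ℂ) → Prop
  | 0, A => ∃ U ∈ Matrix.unitaryGroup S ℂ, A = fun _ => U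
  | q + 1, A => ∃ U ∈ Matrix.unitaryGroup S ℂ, ∃ lab : S → Option V,
      ∃ B : (V → Bool) → Matrix S S ℂ, QU q B ∧
        A = fun x => U * Matrix.diagonal (fun s => ph x (lab s)) * B x

/-- kernels realized in the internal model: start in the basis state `s0`, apply `A x`, measure,
output `out s` -/
def RK {R : Type} [DecidableEq R] (q : ℕ) (μ : (V → Bool) → R → ℝ) : Prop :=
  ∃ (S : Type) (_ : Fintype S) (_ : DecidableEq S) (A : (V → Bool) → Matrix S S ℂ) (s0 : S)
    (out : S → R), QU q A ∧ ∀ x r, ∑ s, (if out s = r then ‖A x s s0‖ ^ 2 else 0) = μ x r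

variable {S : Type} [Fintype S] [DecidableEq S]

theorem ph_mul_self (x : V → Bool) (o : Option V) : ph x o * ph x o = 1 := by
  cases o with
  | none => simp [ph]
  | some v => by_cases h : x v <;> simp [ph, h]

theorem star_ph (x : V → Bool) (o : Option V) : star (ph x o) = ph x o := by
  cases o with
  | none => simp [ph]
  | some v => by_cases h : x v <;> simp [ph, h]

theorem diag_mem (x : V → Bool) (lab : S → Option V) :
    Matrix.diagonal (fun s => ph x (lab s)) ∈ Matrix.unitaryGroup S ℂ := by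
  rw [Matrix.mem_unitaryGroup_iff]
  rw [Matrix.star_eq_conjTranspose, Matrix.diagonal_conjTranspose, Matrix.diagonal_mul_diagonal]
  have : (fun i => ph x (lab i) * (star fun s => ph x (lab s)) i) = fun _ => (1 : ℂ) := by
    funext i
    simp only [Pi.star_apply, star_ph, ph_mul_self]
  rw [this, Matrix.diagonal_one]

theorem QU.const {U : Matrix S S ℂ} (hU : U ∈ Matrix.unitaryGroup S ℂ) :
    QU (V := V) 0 (fun _ => U) := ⟨U, hU, rfl⟩

theorem QU.succ {q : ℕ} {A : (V → Bool) → Matrix S S ℂ} (h : QU q A) : QU (q + 1) A := by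
  refine ⟨1, one_mem _, fun _ => none, A, h, ?_⟩
  funext x
  simp [ph]

theorem QU.mono {p q : ℕ} (hpq : p ≤ q) {A : (V → Bool) → Matrix S S ℂ} (h : QU p A) :
    QU q A := by
  induction hpq with
  | refl => exact h
  | step _ ih => exact ih.succ

theorem QU.query (lab : S → Option V) :
    QU 1 (fun x : V → Bool => Matrix.diagonal (fun s => ph x (lab s))) := by
  refine ⟨1, one_mem _, lab, fun _ => 1, QU.const (one_mem _), ?_⟩
  funext x
  simp

theorem QU.mul {p q : ℕ} {A B : (V → Bool) → Matrix S S ℂ} (hA : QU p A) (hB : QU q B) :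
    QU (p + q) (fun x => A x * B x) := by
  induction p generalizing A with
  | zero =>
    obtain ⟨U, hU, rfl⟩ := hA
    rw [Nat.zero_add]
    cases q with
    | zero =>
      obtain ⟨U', hU', rfl⟩ := hB
      exact ⟨U * U', mul_mem hU hU', rfl⟩
    | succ q =>
      obtain ⟨U', hU', lab, B', hB', rfl⟩ := hB
      refine ⟨U * U', mul_mem hU hU', lab, B', hB', ?_⟩
      funext x
      simp only [Matrix.mul_assoc]
  | succ p ih =>
    obtain ⟨U, hU, lab, A', hA', rfl⟩ := hA
    rw [Nat.succ_add_eq_add_succ, Nat.add_succ]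
    refine ⟨U, hU, lab, fun x => A' x * B x, ih hA', ?_⟩
    funext x
    simp only [Matrix.mul_assoc]

theorem QU.mem {q : ℕ} {A : (V → Bool) → Matrix S S ℂ} (hA : QU q A) (x : V → Bool) :
    A x ∈ Matrix.unitaryGroup S ℂ := by
  induction q generalizing A with
  | zero =>
    obtain ⟨U, hU, rfl⟩ := hA
    exact hU
  | succ q ih =>
    obtain ⟨U, hU, lab, A', hA', rfl⟩ := hA
    exact mul_mem (mul_mem hU (diag_mem x lab)) (ih hA')

theorem conj_mem {U : Matrix S S ℂ} (hU : U ∈ Matrix.unitaryGroup S ℂ) :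
    Uᴴ ∈ Matrix.unitaryGroup S ℂ := by
  rw [Matrix.mem_unitaryGroup_iff', Matrix.star_eq_conjTranspose] at hU
  rw [Matrix.mem_unitaryGroup_iff, Matrix.star_eq_conjTranspose, Matrix.conjTranspose_conjTranspose]
  exact hU

theorem QU.adj {q : ℕ} {A : (V → Bool) → Matrix S S ℂ} (hA : QU q A) :
    QU q (fun x => (A x)ᴴ) := by
  induction q generalizing A with
  | zero =>
    obtain ⟨U, hU, rfl⟩ := hA
    exact ⟨Uᴴ, conj_mem hU, rfl⟩
  | succ q ih =>
    obtain ⟨U, hU, lab, A', hA', rfl⟩ := hA
    have h1 := (ih hA').mul ((QU.query lab).mul (QU.const (V := V) (conj_mem hU)))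
    have h2 : (fun x => (U * Matrix.diagonal (fun s => ph x (lab s)) * A' x)ᴴ) =
        fun x => (A' x)ᴴ * (Matrix.diagonal (fun s => ph x (lab s)) * Uᴴ) := by
      funext x
      have h3 : (star fun s => ph x (lab s)) = fun s => ph x (lab s) := by
        funext s
        simp only [Pi.star_apply, star_ph]
      rw [Matrix.conjTranspose_mul, Matrix.conjTranspose_mul, Matrix.diagonal_conjTranspose, h3]
    rw [h2]
    exact h1

/-- controlled execution: the programs `A r` run in parallel blocks -/
theorem QU.block {R : Type} [Fintype R] [DecidableEq R] {S : R → Type} [∀ r, Fintype (S r)]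
    [∀ r, DecidableEq (S r)] {q : ℕ} {A : ∀ r, (V → Bool) → Matrix (S r) (S r) ℂ}
    (hA : ∀ r, QU q (A r)) :
    QU q (fun x => Matrix.blockDiagonal' (fun r => A r x)) := by
  have hblock : ∀ U : ∀ r, Matrix (S r) (S r) ℂ, (∀ r, U r ∈ Matrix.unitaryGroup (S r) ℂ) →
      Matrix.blockDiagonal' U ∈ Matrix.unitaryGroup (Σ r, S r) ℂ := by
    intro U hU
    rw [Matrix.mem_unitaryGroup_iff, Matrix.star_eq_conjTranspose,
      Matrix.blockDiagonal'_conjTranspose, ← Matrix.blockDiagonal'_mul]
    have : (fun k => U k * (U k)ᴴ) = 1 := by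
      funext k
      have := Matrix.mem_unitaryGroup_iff.mp (hU k)
      rw [Matrix.star_eq_conjTranspose] at this
      exact this
    rw [this, Matrix.blockDiagonal'_one]
  induction q generalizing A with
  | zero =>
    choose U hU hA using hA
    refine ⟨Matrix.blockDiagonal' U, hblock U hU, ?_⟩
    funext x
    congr 1
    funext r
    rw [hA r]
  | succ q ih =>
    choose U hU lab B hB hA using hA
    refine ⟨Matrix.blockDiagonal' U, hblock U hU, fun s => lab s.1 s.2, _, ih hB, ?_⟩
    funext x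
    have h1 : Matrix.diagonal (fun s : Σ r, S r => ph x (lab s.1 s.2)) =
        Matrix.blockDiagonal' (fun r => Matrix.diagonal (fun s : S r => ph x (lab r s))) := by
      rw [Matrix.blockDiagonal'_diagonal]
    rw [h1, ← Matrix.blockDiagonal'_mul, ← Matrix.blockDiagonal'_mul]
    congr 1
    funext r
    rw [hA r]

/-- direct sum with the identity -/
theorem QU.sumOne {S' : Type} [Fintype S'] [DecidableEq S'] {q : ℕ}
    {A : (V → Bool) → Matrix S S ℂ} (hA : QU q A) :
    QU q (fun x => Matrix.fromBlocks (A x) 0 0 (1 : Matrix S' S' ℂ)) := by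
  have hblock : ∀ U : Matrix S S ℂ, U ∈ Matrix.unitaryGroup S ℂ →
      Matrix.fromBlocks U 0 0 (1 : Matrix S' S' ℂ) ∈ Matrix.unitaryGroup (S ⊕ S') ℂ := by
    intro U hU
    rw [Matrix.mem_unitaryGroup_iff, Matrix.star_eq_conjTranspose] at hU ⊢
    rw [Matrix.fromBlocks_conjTranspose, Matrix.fromBlocks_multiply]
    simp [hU]
  induction q generalizing A with
  | zero =>
    obtain ⟨U, hU, rfl⟩ := hA
    exact ⟨_, hblock U hU, rfl⟩
  | succ q ih =>
    obtain ⟨U, hU, lab, B, hB, rfl⟩ := hA
    refine ⟨_, hblock U hU, Sum.elim lab (fun _ => none), _, ih hB, ?_⟩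
    funext x
    have h1 : Matrix.diagonal (fun s : S ⊕ S' => ph x (Sum.elim lab (fun _ => none) s)) =
        Matrix.fromBlocks (Matrix.diagonal (fun s => ph x (lab s))) 0 0 (1 : Matrix S' S' ℂ) := by
      rw [← Matrix.diagonal_one, Matrix.fromBlocks_diagonal]
      congr 1
      funext s
      cases s <;> simp [ph]
    rw [h1, Matrix.fromBlocks_multiply, Matrix.fromBlocks_multiply]
    simp

/-- change of the index type -/
theorem QU.reindex {S' : Type} [Fintype S'] [DecidableEq S'] (e : S' ≃ S) {q : ℕ}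
    {A : (V → Bool) → Matrix S S ℂ} (hA : QU q A) :
    QU q (fun x => (A x).submatrix e e) := by
  have hre : ∀ U : Matrix S S ℂ, U ∈ Matrix.unitaryGroup S ℂ →
      U.submatrix e e ∈ Matrix.unitaryGroup S' ℂ := by
    intro U hU
    rw [Matrix.mem_unitaryGroup_iff, Matrix.star_eq_conjTranspose] at hU ⊢
    rw [Matrix.conjTranspose_submatrix, Matrix.submatrix_mul_equiv, hU,
      Matrix.submatrix_one_equiv]
  induction q generalizing A with
  | zero =>
    obtain ⟨U, hU, rfl⟩ := hA
    exact ⟨_, hre U hU, rfl⟩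
  | succ q ih =>
    obtain ⟨U, hU, lab, B, hB, rfl⟩ := hA
    refine ⟨_, hre U hU, fun s => lab (e s), _, ih hB, ?_⟩
    funext x
    have h1 : Matrix.diagonal (fun s : S' => ph x (lab (e s))) =
        (Matrix.diagonal (fun s => ph x (lab s))).submatrix e e := by
      rw [Matrix.submatrix_diagonal_equiv]
      rfl
    rw [h1, Matrix.submatrix_mul_equiv, Matrix.submatrix_mul_equiv]

/-- tensor product with the identity of an ancilla -/
theorem QU.prodOne {S' : Type} [Fintype S'] [DecidableEq S'] {q : ℕ}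
    {A : (V → Bool) → Matrix S S ℂ} (hA : QU q A) :
    QU q (fun x => Matrix.blockDiagonal (fun _ : S' => A x)) := by
  have hblock : ∀ U : Matrix S S ℂ, U ∈ Matrix.unitaryGroup S ℂ →
      Matrix.blockDiagonal (fun _ : S' => U) ∈ Matrix.unitaryGroup (S × S') ℂ := by
    intro U hU
    rw [Matrix.mem_unitaryGroup_iff, Matrix.star_eq_conjTranspose] at hU ⊢
    rw [Matrix.blockDiagonal_conjTranspose, ← Matrix.blockDiagonal_mul]
    simp only [hU]
    exact Matrix.blockDiagonal_one
  induction q generalizing A with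
  | zero =>
    obtain ⟨U, hU, rfl⟩ := hA
    exact ⟨_, hblock U hU, rfl⟩
  | succ q ih =>
    obtain ⟨U, hU, lab, B, hB, rfl⟩ := hA
    refine ⟨_, hblock U hU, fun s => lab s.1, _, ih hB, ?_⟩
    funext x
    have h1 : Matrix.diagonal (fun s : S × S' => ph x (lab s.1)) =
        Matrix.blockDiagonal (fun _ : S' => Matrix.diagonal (fun s => ph x (lab s))) := by
      rw [Matrix.blockDiagonal_diagonal]
    rw [h1, ← Matrix.blockDiagonal_mul, ← Matrix.blockDiagonal_mul]

theorem RK.mono {R : Type} [DecidableEq R] {p q : ℕ} (hpq : p ≤ q) {μ : (V → Bool) → R → ℝ}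
    (h : RK p μ) : RK q μ := by
  obtain ⟨S, i1, i2, A, s0, out, hA, h⟩ := h
  exact ⟨S, i1, i2, A, s0, out, hA.mono hpq, h⟩

end Q
end P362
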